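import Vale.Agent.P054.T2.H686.Sep

set_option autoImplicit false
set_option linter.all false

/-!
# P054 / T2, leaf (PAR): `r ∈ U₂ = r₀ + V₂` as a rational function of the coordinate `u` of the
leaf of `s`
-/

namespace Vale.Agent.P054.T2.H686

open MvPolynomial

variable {k : Type*} [Field k] {n : ℕ}

/-- `(1, u)` -/
def vec1 (u : Fin n → k) : Fin (n + 1) → k := Fin.cons 1 u

@[simp] theorem vec1_zero (u : Fin n → k) : vec1 u 0 = 1 := rfl
@[simp] theorem vec1_succ (u : Fin n → k) (i : Fin n) : vec1 u i.succ = u i := rfl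

/-- `ζ_r - ζ_s = (ζ_r0 - ζ_s0) (1, u)` with `u = mu s r` -/
theorem sub_eq_smul_vec1 {s r : (Fin (n + 1) → k) × (Fin (n + 1) → k)} (h : s.1 0 ≠ r.1 0) :
    r.1 - s.1 = (r.1 0 - s.1 0) • vec1 (mu s r) := by
  have hne : s.1 0 - r.1 0 ≠ 0 := sub_ne_zero.2 h
  funext i
  refine Fin.cases ?_ (fun i => ?_) i
  · simp
  · simp only [Pi.sub_apply, Pi.smul_apply, vec1_succ, mu, smul_eq_mul]
    field_simp
    ring

/-- the polynomial `u ↦ ℓ (1, u)` -/
noncomputable def linP (ℓ : (Fin (n + 1) → k) →ₗ[k] k) : MvPolynomial (Fin n) k :=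
  C (ℓ (Pi.single 0 1)) + ∑ i : Fin n, C (ℓ (Pi.single i.succ 1)) * X i

theorem totalDegree_linP (ℓ : (Fin (n + 1) → k) →ₗ[k] k) : (linP ℓ).totalDegree ≤ 1 := by
  unfold linP
  refine (totalDegree_add _ _).trans (max_le (by rw [totalDegree_C]; exact Nat.zero_le _) ?_)
  refine (totalDegree_finset_sum _ _).trans (Finset.sup_le fun i _ => ?_)
  refine (totalDegree_mul _ _).trans ?_
  rw [totalDegree_C, zero_add]
  exact (totalDegree_X _).le

theorem eval_linP (ℓ : (Fin (n + 1) → k) →ₗ[k] k) (u : Fin n → k) :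
    eval u (linP ℓ) = ℓ (vec1 u) := by
  have h : vec1 u = (Pi.single 0 1 : Fin (n + 1) → k) +
      ∑ i : Fin n, u i • (Pi.single i.succ 1 : Fin (n + 1) → k) := by
    funext j
    refine Fin.cases ?_ (fun j => ?_) j
    · simp [Finset.sum_apply, Pi.single_apply, (Fin.succ_ne_zero _).symm]
    · simp [Finset.sum_apply, Pi.single_apply, Fin.succ_ne_zero]
  rw [h]
  simp only [linP, map_add, map_sum, map_mul, eval_C, eval_X, map_smul, smul_eq_mul]
  congr 1
  exact Finset.sum_congr rfl fun i _ => mul_comm _ _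

/-- coordinate functionals of `k^{2d}` -/
def crd (i : Fin (n + 1) ⊕ Fin (n + 1)) :
    ((Fin (n + 1) → k) × (Fin (n + 1) → k)) →ₗ[k] k :=
  match i with
  | Sum.inl i => (LinearMap.proj i).comp (LinearMap.fst k _ _)
  | Sum.inr i => (LinearMap.proj i).comp (LinearMap.snd k _ _)

theorem crd_apply (i : Fin (n + 1) ⊕ Fin (n + 1)) (r : (Fin (n + 1) → k) × (Fin (n + 1) → k)) :
    crd i r = Sum.elim r.1 r.2 i := by
  rcases i with i | i <;> rfl

/-- **(PAR 1)** linear section -/
theorem par_linear (s r₀ : (Fin (n + 1) → k) × (Fin (n + 1) → k))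
    (V : Submodule k ((Fin (n + 1) → k) × (Fin (n + 1) → k)))
    (hinj : ∀ w ∈ V ⊔ Submodule.span k {s - r₀}, w.1 = 0 → w = 0) (hs : s - r₀ ∉ V) :
    ∃ (num : Fin (n + 1) ⊕ Fin (n + 1) → MvPolynomial (Fin n) k) (den : MvPolynomial (Fin n) k),
      (∀ i, (num i).totalDegree ≤ 1) ∧ den.totalDegree ≤ 1 ∧
      ∀ r, r - r₀ ∈ V → s.1 0 ≠ r.1 0 → eval (mu s r) den ≠ 0 ∧
        ∀ i, Sum.elim r.1 r.2 i * eval (mu s r) den = eval (mu s r) (num i) := by
  classical
  set W := V ⊔ Submodule.span k {s - r₀} with hW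
  have haW : s - r₀ ∈ W := Submodule.mem_sup_right (Submodule.mem_span_singleton_self _)
  -- a left inverse of ζ on W
  have hker : LinearMap.ker ((LinearMap.fst k (Fin (n + 1) → k) (Fin (n + 1) → k)).comp
      W.subtype) = ⊥ := by
    rw [LinearMap.ker_eq_bot']
    intro w hw
    exact Subtype.ext (hinj w.1 w.2 hw)
  obtain ⟨g, hg⟩ := LinearMap.exists_leftInverse_of_injective _ hker
  have hg' : ∀ w (hw : w ∈ W), g w.1 = ⟨w, hw⟩ := fun w hw =>
    congrArg (fun φ : W →ₗ[k] W => φ ⟨w, hw⟩) hg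
  set G := W.subtype.comp g with hG
  have hG' : ∀ w ∈ W, G w.1 = w := by
    intro w hw
    simp only [hG, LinearMap.comp_apply, hg' w hw, Submodule.subtype_apply]
  obtain ⟨f, hf, hf'⟩ := Submodule.exists_le_ker_of_notMem hs
  set ℓ : (Fin (n + 1) → k) →ₗ[k] k := (-(f (s - r₀))⁻¹) • f.comp G with hℓ
  have hℓ1 : ∀ r, r - r₀ ∈ V → ℓ (r.1 - s.1) = 1 := by
    intro r hr
    have h1 : r - s = (r - r₀) - (s - r₀) := by abel
    have h2 : r - s ∈ W := by
      rw [h1]
      exact W.sub_mem (Submodule.mem_sup_left hr) haW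
    have h3 : G (r.1 - s.1) = r - s := hG' (r - s) h2
    simp only [hℓ, LinearMap.smul_apply, LinearMap.comp_apply, h3, smul_eq_mul]
    have h5 : f (r - r₀) = 0 := hf' hr
    have h6 : f (r - r₀ - (s - r₀)) = - f (s - r₀) := by rw [f.map_sub (r - r₀), h5, zero_sub]
    rw [h1, h6, neg_mul_neg]
    exact inv_mul_cancel₀ hf
  refine ⟨fun i => C (crd i s) * linP ℓ + linP ((crd i).comp G), linP ℓ, ?_, totalDegree_linP _,
    ?_⟩
  · intro i
    refine (totalDegree_add _ _).trans (max_le ?_ (totalDegree_linP _))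
    refine (totalDegree_mul _ _).trans ?_
    rw [totalDegree_C, zero_add]
    exact totalDegree_linP _
  · intro r hr h0
    have h1 := sub_eq_smul_vec1 h0
    have h2 := hℓ1 r hr
    have h4 : r - s ∈ W := by
      have h1 : r - s = (r - r₀) - (s - r₀) := by abel
      rw [h1]
      exact W.sub_mem (Submodule.mem_sup_left hr) haW
    have h3 : G (r.1 - s.1) = r - s := hG' (r - s) h4
    rw [h1, map_smul, smul_eq_mul] at h2
    have h5 : ℓ (vec1 (mu s r)) ≠ 0 := right_ne_zero_of_mul_eq_one h2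
    refine ⟨by rw [eval_linP]; exact h5, ?_⟩
    intro i
    have h6 : (r.1 0 - s.1 0) • G (vec1 (mu s r)) = r - s := by
      rw [← map_smul, ← h1, h3]
    have h7 : crd i r = crd i s + (r.1 0 - s.1 0) * crd i (G (vec1 (mu s r))) := by
      rw [← smul_eq_mul, ← map_smul, h6, map_sub]; ring
    rw [← crd_apply, map_add, map_mul, eval_C, eval_linP, eval_linP, LinearMap.comp_apply, h7]
    linear_combination (crd i (G (vec1 (mu s r)))) * h2

/-- the polar form of `Qf` -/
def Bf (s r : (Fin (n + 1) → k) × (Fin (n + 1) → k)) : k := ∑ i, (s.1 i * r.2 i + r.1 i * s.2 i)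

theorem Qf_add (s r : (Fin (n + 1) → k) × (Fin (n + 1) → k)) :
    Qf (s + r) = Qf s + Bf s r + Qf r := by
  simp only [Qf, Bf, ← Finset.sum_add_distrib, Prod.fst_add, Prod.snd_add, Pi.add_apply]
  exact Finset.sum_congr rfl fun i _ => by ring

theorem Qf_smul (c : k) (s : (Fin (n + 1) → k) × (Fin (n + 1) → k)) :
    Qf (c • s) = c ^ 2 * Qf s := by
  simp only [Qf, Finset.mul_sum, Prod.smul_fst, Prod.smul_snd, Pi.smul_apply, smul_eq_mul]
  exact Finset.sum_congr rfl fun i _ => by ring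

theorem Bf_smul_right (c : k) (s r : (Fin (n + 1) → k) × (Fin (n + 1) → k)) :
    Bf s (c • r) = c * Bf s r := by
  simp only [Bf, Finset.mul_sum, Prod.smul_fst, Prod.smul_snd, Pi.smul_apply, smul_eq_mul]
  exact Finset.sum_congr rfl fun i _ => by ring

/-- the polynomial `u ↦ Q(G(1,u))` -/
noncomputable def QP (G : (Fin (n + 1) → k) →ₗ[k] ((Fin (n + 1) → k) × (Fin (n + 1) → k))) :
    MvPolynomial (Fin n) k :=
  ∑ i, linP ((crd (Sum.inl i)).comp G) * linP ((crd (Sum.inr i)).comp G)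

theorem totalDegree_QP (G : (Fin (n + 1) → k) →ₗ[k] ((Fin (n + 1) → k) × (Fin (n + 1) → k))) :
    (QP G).totalDegree ≤ 2 := by
  unfold QP
  refine (totalDegree_finset_sum _ _).trans (Finset.sup_le fun i _ => ?_)
  refine (totalDegree_mul _ _).trans ?_
  have := totalDegree_linP ((crd (Sum.inl i)).comp G)
  have := totalDegree_linP ((crd (Sum.inr i)).comp G)
  omega

theorem eval_QP (G : (Fin (n + 1) → k) →ₗ[k] ((Fin (n + 1) → k) × (Fin (n + 1) → k)))
    (u : Fin n → k) : eval u (QP G) = Qf (G (vec1 u)) := by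
  unfold QP Qf
  rw [map_sum]
  refine Finset.sum_congr rfl fun i _ => ?_
  rw [map_mul, eval_linP, eval_linP]
  rfl

/-- the linear form `B(a, G ·)` -/
def BL (a : (Fin (n + 1) → k) × (Fin (n + 1) → k))
    (G : (Fin (n + 1) → k) →ₗ[k] ((Fin (n + 1) → k) × (Fin (n + 1) → k))) :
    (Fin (n + 1) → k) →ₗ[k] k where
  toFun v := Bf a (G v)
  map_add' v w := by
    simp only [Bf, map_add, ← Finset.sum_add_distrib, Prod.fst_add, Prod.snd_add, Pi.add_apply]
    exact Finset.sum_congr rfl fun i _ => by ring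
  map_smul' c v := by
    rw [map_smul, Bf_smul_right]; rfl

/-- **(PAR 2)** stereographic projection: `G` is the inverse of `ζ : V → k^d`, `s' ∈ r₀ + V` the
point with `ζ_{s'} = ζ_s` -/
theorem par_stereo (s s' : (Fin (n + 1) → k) × (Fin (n + 1) → k)) (hs' : s'.1 = s.1)
    (V : Submodule k ((Fin (n + 1) → k) × (Fin (n + 1) → k)))
    (hinj : ∀ w ∈ V, w.1 = 0 → w = 0)
    (G : (Fin (n + 1) → k) →ₗ[k] ((Fin (n + 1) → k) × (Fin (n + 1) → k)))
    (hGV : ∀ v, G v ∈ V) (hG : ∀ v, (G v).1 = v) :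
    ∃ (num : Fin (n + 1) ⊕ Fin (n + 1) → MvPolynomial (Fin n) k),
      (∀ i, (num i).totalDegree ≤ 2) ∧
      ∀ r, r - s' ∈ V → s.1 0 ≠ r.1 0 → Qf (r - s) = 0 →
        ∀ i, Sum.elim r.1 r.2 i * eval (mu s r) (QP G) = eval (mu s r) (num i) := by
  classical
  set ℓ := BL (s' - s) G with hℓ
  refine ⟨fun i => C (crd i s') * QP G - linP ℓ * linP ((crd i).comp G), ?_, ?_⟩
  · intro i
    refine (totalDegree_sub _ _).trans (max_le ?_ ?_)
    · refine (totalDegree_mul _ _).trans ?_
      rw [totalDegree_C, zero_add]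
      exact totalDegree_QP _
    · refine (totalDegree_mul _ _).trans ?_
      have := totalDegree_linP ℓ
      have := totalDegree_linP ((crd i).comp G)
      omega
  · intro r hr h0 hq i
    have h1 := sub_eq_smul_vec1 h0
    set c : k := r.1 0 - s.1 0 with hc
    have hc0 : c ≠ 0 := sub_ne_zero.2 h0.symm
    have h2 : r - s' = c • G (vec1 (mu s r)) := by
      have h3 : (r - s') - c • G (vec1 (mu s r)) = 0 := by
        apply hinj
        · exact V.sub_mem hr (V.smul_mem _ (hGV _))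
        · rw [Prod.fst_sub, Prod.fst_sub, hs', h1, Prod.smul_fst, hG, sub_self]
      exact sub_eq_zero.1 h3
    have h3 : r - s = (s' - s) + c • G (vec1 (mu s r)) := by
      rw [← h2]; abel
    have h4 : Qf (s' - s) = 0 := by
      unfold Qf
      refine Finset.sum_eq_zero fun i _ => ?_
      rw [Prod.fst_sub, hs', sub_self]
      simp
    rw [h3, Qf_add, h4, Bf_smul_right, Qf_smul] at hq
    have h5 : Bf (s' - s) (G (vec1 (mu s r))) + c * Qf (G (vec1 (mu s r))) = 0 := by
      have h6 : c * (Bf (s' - s) (G (vec1 (mu s r))) + c * Qf (G (vec1 (mu s r)))) = 0 := by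
        linear_combination hq
      exact (mul_eq_zero.1 h6).resolve_left hc0
    have h6 : ℓ (vec1 (mu s r)) = Bf (s' - s) (G (vec1 (mu s r))) := rfl
    have h7 : crd i r = crd i s' + c * crd i (G (vec1 (mu s r))) := by
      have : r = s' + c • G (vec1 (mu s r)) := by rw [← h2]; abel
      conv_lhs => rw [this]
      rw [map_add, map_smul, smul_eq_mul]
    rw [← crd_apply, map_sub, map_mul, map_mul, eval_C, eval_QP, eval_linP, eval_linP,
      LinearMap.comp_apply, h7, h6]
    linear_combination (crd i (G (vec1 (mu s r)))) * h5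

/-- existence of `G` for a `d`-dimensional `V` on which `ζ` is injective -/
theorem exists_G (V : Submodule k ((Fin (n + 1) → k) × (Fin (n + 1) → k)))
    (hinj : ∀ w ∈ V, w.1 = 0 → w = 0) (hdim : Module.finrank k V = n + 1) :
    ∃ G : (Fin (n + 1) → k) →ₗ[k] ((Fin (n + 1) → k) × (Fin (n + 1) → k)),
      (∀ v, G v ∈ V) ∧ (∀ v, (G v).1 = v) := by
  classical
  set φ : V →ₗ[k] (Fin (n + 1) → k) :=
    (LinearMap.fst k (Fin (n + 1) → k) (Fin (n + 1) → k)).comp V.subtype with hφ
  have hker : LinearMap.ker φ = ⊥ := by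
    rw [LinearMap.ker_eq_bot']
    intro w hw
    exact Subtype.ext (hinj w.1 w.2 hw)
  have hbij : Function.Bijective φ := by
    have hinj' : Function.Injective φ := LinearMap.ker_eq_bot.1 hker
    refine ⟨hinj', ?_⟩
    rw [← LinearMap.range_eq_top]
    apply Submodule.eq_top_of_finrank_eq
    rw [LinearMap.finrank_range_of_inj hinj', hdim]
    simp
  set e := LinearEquiv.ofBijective φ hbij with he
  refine ⟨V.subtype.comp e.symm.toLinearMap, fun v => (e.symm v).2, fun v => ?_⟩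
  have : φ (e.symm v) = v := e.apply_symm_apply v
  exact this

end Vale.Agent.P054.T2.H686
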