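import Vale.Agent.P054.T2.H686.Leaf

set_option autoImplicit false
set_option linter.all false

/-!
# P054 / T2, leaf (S-a'), (S-b): pairs of points as points of `k^{2d}`, number of edges
-/

namespace Vale.Agent.P054.T2.H686

open MvPolynomial

/-- Euclidean space of dimension `n+1` -/
abbrev E (n : ℕ) := EuclideanSpace ℝ (Fin (n + 1))

variable {n : ℕ}

/-- `(x, x') ↦ (ζ, θ) = (x - B x', x + B x')`, `B ∈ O(n+1)` -/
noncomputable def zt (B : E n ≃ₗᵢ[ℝ] E n) (s : E n × E n) : (Fin (n + 1) → ℝ) × (Fin (n + 1) → ℝ) :=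
  (fun i => s.1 i - B s.2 i, fun i => s.1 i + B s.2 i)

theorem zt_injective (B : E n ≃ₗᵢ[ℝ] E n) : Function.Injective (zt B) := by
  intro s r h
  have h1 : ∀ i, s.1 i - B s.2 i = r.1 i - B r.2 i := fun i => congrFun (congrArg Prod.fst h) i
  have h2 : ∀ i, s.1 i + B s.2 i = r.1 i + B r.2 i := fun i => congrFun (congrArg Prod.snd h) i
  have h3 : s.1 = r.1 := by
    ext i
    linarith [h1 i, h2 i]
  have h4 : B s.2 = B r.2 := by
    ext i
    linarith [h1 i, h2 i]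
  exact Prod.ext h3 (B.injective h4)

theorem zt_sub (B : E n ≃ₗᵢ[ℝ] E n) (s r : E n × E n) : zt B (s - r) = zt B s - zt B r := by
  ext i
  · simp only [zt, Prod.fst_sub, Prod.snd_sub, map_sub, Pi.sub_apply, PiLp.sub_apply]; ring
  · simp only [zt, Prod.fst_sub, Prod.snd_sub, map_sub, Pi.sub_apply, PiLp.sub_apply]; ring

theorem Qf_zt (B : E n ≃ₗᵢ[ℝ] E n) (s : E n × E n) : Qf (zt B s) = ‖s.1‖ ^ 2 - ‖s.2‖ ^ 2 := by
  have h1 : ‖s.1‖ ^ 2 = ∑ i, s.1 i ^ 2 := by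
    rw [EuclideanSpace.norm_sq_eq]
    simp
  have h2 : ‖s.2‖ ^ 2 = ∑ i, B s.2 i ^ 2 := by
    rw [← B.norm_map, EuclideanSpace.norm_sq_eq]
    simp
  rw [h1, h2, ← Finset.sum_sub_distrib]
  unfold Qf zt
  refine Finset.sum_congr rfl fun i _ => ?_
  ring

theorem Qf_zt_sub (B : E n ≃ₗᵢ[ℝ] E n) (s r : E n × E n) :
    Qf (zt B s - zt B r) = dist s.1 r.1 ^ 2 - dist s.2 r.2 ^ 2 := by
  rw [← zt_sub, Qf_zt, dist_eq_norm, dist_eq_norm]
  rfl

/-- adjacency is equality of the two distances -/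
theorem Qf_zt_sub_eq_zero (B : E n ≃ₗᵢ[ℝ] E n) (s r : E n × E n) :
    Qf (zt B s - zt B r) = 0 ↔ dist s.1 r.1 = dist s.2 r.2 := by
  rw [Qf_zt_sub, sub_eq_zero]
  exact pow_left_inj₀ dist_nonneg dist_nonneg two_ne_zero

/-- the edges: ordered pairs `(s, r)` of distinct points of `P × P` with
`|x - y| = |x' - y'| ≠ 0` -/
noncomputable def edges (P : Finset (E n)) : Finset ((E n × E n) × (E n × E n)) := by
  classical
  exact ((P ×ˢ P) ×ˢ (P ×ˢ P)).filter fun e =>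
    e.1.1 ≠ e.2.1 ∧ dist e.1.1 e.2.1 = dist e.1.2 e.2.2

theorem mem_edges {P : Finset (E n)} {e : (E n × E n) × (E n × E n)} :
    e ∈ edges P ↔ ((e.1.1 ∈ P ∧ e.1.2 ∈ P) ∧ (e.2.1 ∈ P ∧ e.2.2 ∈ P)) ∧
      (e.1.1 ≠ e.2.1 ∧ dist e.1.1 e.2.1 = dist e.1.2 e.2.2) := by
  classical
  simp [edges]

theorem mem_edges_snd_ne {P : Finset (E n)} {e : (E n × E n) × (E n × E n)} (h : e ∈ edges P) :
    e.1.2 ≠ e.2.2 := by
  have h1 := (mem_edges.1 h).2
  intro h2
  rw [h2, dist_self] at h1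
  exact h1.1 (dist_eq_zero.1 h1.2)

theorem edges_symm {P : Finset (E n)} {e : (E n × E n) × (E n × E n)} (h : e ∈ edges P) :
    (e.2, e.1) ∈ edges P := by
  rw [mem_edges] at h ⊢
  exact ⟨⟨h.1.2, h.1.1⟩, ⟨h.2.1.symm, by rw [dist_comm, h.2.2, dist_comm]⟩⟩

/-- the set of distances -/
noncomputable def dists (P : Finset (E n)) : Finset ℝ := by
  classical
  exact P.offDiag.image fun p => dist p.1 p.2

theorem coe_dists (P : Finset (E n)) :
    (dists P : Set ℝ) = {r : ℝ | ∃ p ∈ P, ∃ q ∈ P, p ≠ q ∧ r = dist p q} := by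
  classical
  ext r
  simp only [dists, Finset.coe_image, Set.mem_image, Finset.mem_coe, Finset.mem_offDiag,
    Prod.exists, Set.mem_setOf_eq]
  constructor
  · rintro ⟨p, q, ⟨hp, hq, hne⟩, rfl⟩
    exact ⟨p, hp, q, hq, hne, rfl⟩
  · rintro ⟨p, hp, q, hq, hne, rfl⟩
    exact ⟨p, q, ⟨hp, hq, hne⟩, rfl⟩

/-- (S-b) Cauchy–Schwarz: `(n² - n)² ≤ t · |E|` -/
theorem card_edges (P : Finset (E n)) :
    (P.card * (P.card - 1)) ^ 2 ≤ (dists P).card * (edges P).card := by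
  classical
  set f : E n × E n → ℝ := fun p => dist p.1 p.2 with hf
  have h1 : P.offDiag.card = P.card * (P.card - 1) := by
    rw [Finset.offDiag_card, Nat.mul_sub, mul_one]
  have h2 : P.offDiag.card = ∑ r ∈ dists P, (P.offDiag.filter fun p => f p = r).card :=
    Finset.card_eq_sum_card_image f P.offDiag
  have h3 : (∑ r ∈ dists P, (P.offDiag.filter fun p => f p = r).card) ^ 2 ≤
      (dists P).card * ∑ r ∈ dists P, (P.offDiag.filter fun p => f p = r).card ^ 2 :=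
    sq_sum_le_card_mul_sum_sq
  rw [← h1, h2]
  refine h3.trans (Nat.mul_le_mul_left _ ?_)
  have h4 : ∀ r ∈ dists P, (P.offDiag.filter fun p => f p = r).card ^ 2 =
      ((P.offDiag.filter fun p => f p = r) ×ˢ (P.offDiag.filter fun p => f p = r)).card := by
    intro r _
    rw [Finset.card_product, sq]
  rw [Finset.sum_congr rfl h4, ← Finset.card_biUnion]
  · refine Finset.card_le_card_of_injOn (fun q => ((q.1.1, q.2.1), (q.1.2, q.2.2))) ?_ ?_
    · intro q hq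
      simp only [Finset.coe_biUnion, Finset.mem_coe, Set.mem_iUnion, Finset.mem_product,
        Finset.mem_filter, Finset.mem_offDiag, exists_prop] at hq
      obtain ⟨r, hr, ⟨⟨h5, h6, h7⟩, h8⟩, ⟨⟨h9, h10, h11⟩, h12⟩⟩ := hq
      simp only [Finset.mem_coe]
      rw [mem_edges]
      refine ⟨⟨⟨h5, h9⟩, ⟨h6, h10⟩⟩, h7, ?_⟩
      exact h8.trans h12.symm
    · intro q _ q' _ h
      simp only [Prod.mk.injEq] at h
      obtain ⟨⟨h1, h2⟩, ⟨h3, h4⟩⟩ := h
      exact Prod.ext (Prod.ext h1 h3) (Prod.ext h2 h4)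
  · intro r _ r' _ hne
    rw [Function.onFun, Finset.disjoint_left]
    intro q hq hq'
    simp only [Finset.mem_product, Finset.mem_filter] at hq hq'
    exact hne (hq.1.2.symm.trans hq'.1.2)

end Vale.Agent.P054.T2.H686
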