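import Mathlib

set_option autoImplicit false
set_option linter.all false

/-!
# P054 / T2: the basic scale `β` (discrete scales `T_k = b^k`, `b = β^L`)
-/

namespace Vale.Agent.P054.T2.H686

open Filter Topology

/-- `β ^ M ≈ t ^ (1 + ε)`; every fixed constant and every power of `log t` is at most `β` -/
theorem exists_beta (M : ℕ) (hM : 1 ≤ M) (ε : ℝ) (hε : 0 < ε) (C0 D : ℕ) :
    ∃ T0 : ℕ, 1 ≤ T0 ∧ ∀ t : ℕ, T0 ≤ t → ∃ β : ℕ, C0 ≤ β ∧ 2 ≤ β ∧
      (t : ℝ) ^ (1 + ε) ≤ (β : ℝ) ^ M ∧ (β : ℝ) ^ M ≤ (t : ℝ) ^ (1 + 2 * ε) ∧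
      ∀ N : ℕ, (N : ℝ) ≤ 2 * (t : ℝ) ^ D →
        2 ^ 18 * (12 * Real.log ((N : ℝ) + 1) + 1) ^ 2 ≤ (β : ℝ) := by
  have hMr : (0 : ℝ) < M := by exact_mod_cast hM
  set a : ℝ := (1 + ε) / M with ha
  have ha0 : 0 < a := by positivity
  -- the conditions that hold for all large t
  have h1 : ∀ᶠ t : ℕ in atTop, ((C0 : ℝ) + 2) ≤ (t : ℝ) ^ a :=
    ((tendsto_rpow_atTop ha0).comp tendsto_natCast_atTop_atTop).eventually_ge_atTop _
  have h2 : ∀ᶠ t : ℕ in atTop, (2 : ℝ) ^ M ≤ (t : ℝ) ^ ε :=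
    ((tendsto_rpow_atTop hε).comp tendsto_natCast_atTop_atTop).eventually_ge_atTop _
  have h3 : ∀ᶠ t : ℕ in atTop,
      2 ^ 18 * (12 * (Real.log 3 + D * Real.log t) + 1) ^ 2 ≤ (t : ℝ) ^ a := by
    have e1 : Tendsto (fun x : ℝ => Real.log x / x ^ (a / 2)) atTop (𝓝 0) := by
      have := (isLittleO_log_rpow_atTop (r := a / 2) (by positivity)).tendsto_div_nhds_zero
      exact this
    have e2 : Tendsto (fun x : ℝ => (12 * Real.log 3 + 1) / x ^ (a / 2)) atTop (𝓝 0) :=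
      tendsto_const_nhds.div_atTop (tendsto_rpow_atTop (by positivity))
    have e3 : Tendsto (fun x : ℝ => (12 * Real.log 3 + 1) / x ^ (a / 2) +
        12 * D * (Real.log x / x ^ (a / 2))) atTop (𝓝 0) := by
      have := e2.add (e1.const_mul (12 * D : ℝ))
      simpa using this
    have e4 : ∀ᶠ x : ℝ in atTop, (12 * Real.log 3 + 1) / x ^ (a / 2) +
        12 * D * (Real.log x / x ^ (a / 2)) < 1 / 2 ^ 9 :=
      e3.eventually_lt_const (by positivity)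
    have e5 : ∀ᶠ x : ℝ in atTop,
        2 ^ 18 * (12 * (Real.log 3 + D * Real.log x) + 1) ^ 2 ≤ x ^ a := by
      filter_upwards [e4, eventually_ge_atTop 1] with x hx hx1
      have hp : 0 < x ^ (a / 2) := by positivity
      have hlog : 0 ≤ Real.log x := Real.log_nonneg hx1
      have hlog3 : 0 ≤ Real.log 3 := Real.log_nonneg (by norm_num)
      have h4 : 2 ^ 9 * (12 * (Real.log 3 + D * Real.log x) + 1) ≤ x ^ (a / 2) := by
        have h5 : (12 * Real.log 3 + 1) / x ^ (a / 2) + 12 * D * (Real.log x / x ^ (a / 2)) =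
            (12 * (Real.log 3 + D * Real.log x) + 1) / x ^ (a / 2) := by
          field_simp
          ring
        rw [h5, div_lt_iff₀ hp] at hx
        linarith
      have h6 : x ^ a = x ^ (a / 2) * x ^ (a / 2) := by
        rw [← Real.rpow_add (by linarith)]
        congr 1
        ring
      rw [h6]
      have h7 : 0 ≤ 2 ^ 9 * (12 * (Real.log 3 + D * Real.log x) + 1) := by positivity
      calc 2 ^ 18 * (12 * (Real.log 3 + D * Real.log x) + 1) ^ 2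
          = (2 ^ 9 * (12 * (Real.log 3 + D * Real.log x) + 1)) *
            (2 ^ 9 * (12 * (Real.log 3 + D * Real.log x) + 1)) := by ring
        _ ≤ _ := mul_le_mul h4 h4 h7 hp.le
    exact tendsto_natCast_atTop_atTop.eventually e5
  obtain ⟨T1, hT1⟩ := eventually_atTop.1 (h1.and (h2.and h3))
  refine ⟨max T1 1, le_max_right _ _, fun t ht => ?_⟩
  obtain ⟨g1, g2, g3⟩ := hT1 t ((le_max_left _ _).trans ht)
  have ht1 : 1 ≤ t := (le_max_right _ _).trans ht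
  have ht1r : (1 : ℝ) ≤ t := by exact_mod_cast ht1
  have ht0 : (0 : ℝ) < t := by linarith
  have hpa : 0 < (t : ℝ) ^ a := by positivity
  set β := ⌈(t : ℝ) ^ a⌉₊ with hβ
  have hβ1 : (t : ℝ) ^ a ≤ β := Nat.le_ceil _
  have hβ2 : (β : ℝ) ≤ 2 * (t : ℝ) ^ a := by
    have h5 : (β : ℝ) < (t : ℝ) ^ a + 1 := Nat.ceil_lt_add_one hpa.le
    have : (1 : ℝ) ≤ (t : ℝ) ^ a := Real.one_le_rpow ht1r ha0.le
    linarith
  have hC0 : (C0 : ℝ) + 2 ≤ β := g1.trans hβ1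
  have hta : ((t : ℝ) ^ a) ^ M = (t : ℝ) ^ (1 + ε) := by
    rw [← Real.rpow_natCast, ← Real.rpow_mul ht0.le]
    congr 1
    rw [ha]
    field_simp
  refine ⟨β, ?_, ?_, ?_, ?_, ?_⟩
  · have : ((C0 + 2 : ℕ) : ℝ) ≤ β := by push_cast; exact hC0
    have : C0 + 2 ≤ β := by exact_mod_cast this
    omega
  · have : ((C0 + 2 : ℕ) : ℝ) ≤ β := by push_cast; exact hC0
    have : C0 + 2 ≤ β := by exact_mod_cast this
    omega
  · rw [← hta]
    exact pow_le_pow_left₀ hpa.le hβ1 M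
  · calc (β : ℝ) ^ M ≤ (2 * (t : ℝ) ^ a) ^ M := pow_le_pow_left₀ (by positivity) hβ2 M
      _ = 2 ^ M * (t : ℝ) ^ (1 + ε) := by rw [mul_pow, hta]
      _ ≤ (t : ℝ) ^ ε * (t : ℝ) ^ (1 + ε) := by gcongr
      _ = (t : ℝ) ^ (1 + 2 * ε) := by
          rw [← Real.rpow_add ht0]
          congr 1
          ring
  · intro N hN
    refine le_trans ?_ hβ1
    refine le_trans ?_ g3
    have hN1 : Real.log ((N : ℝ) + 1) ≤ Real.log 3 + D * Real.log t := by
      have h5 : (N : ℝ) + 1 ≤ 3 * (t : ℝ) ^ D := by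
        have : (1 : ℝ) ≤ (t : ℝ) ^ D := one_le_pow₀ ht1r
        linarith
      calc Real.log ((N : ℝ) + 1) ≤ Real.log (3 * (t : ℝ) ^ D) :=
            Real.log_le_log (by positivity) h5
        _ = Real.log 3 + D * Real.log t := by
            rw [Real.log_mul (by norm_num) (by positivity), Real.log_pow]
    have hN0 : 0 ≤ Real.log ((N : ℝ) + 1) := Real.log_nonneg (by
      have : (0 : ℝ) ≤ N := by positivity
      linarith)
    gcongr

/-- powers of the basic scale are small powers of `t` -/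
theorem beta_pow_le {t β M a : ℕ} {ε δ : ℝ} (ht : 1 ≤ t) (hM : 1 ≤ M)
    (h : (β : ℝ) ^ M ≤ (t : ℝ) ^ (1 + 2 * ε)) (ha : (a : ℝ) * (1 + 2 * ε) ≤ M * δ) :
    (β : ℝ) ^ a ≤ (t : ℝ) ^ δ := by
  have ht1 : (1 : ℝ) ≤ t := by exact_mod_cast ht
  have ht0 : (0 : ℝ) < t := by linarith
  have hMr : (0 : ℝ) < M := by exact_mod_cast hM
  have h1 : ((β : ℝ) ^ a) ^ M ≤ ((t : ℝ) ^ δ) ^ M := by
    calc ((β : ℝ) ^ a) ^ M = ((β : ℝ) ^ M) ^ a := by rw [← pow_mul, ← pow_mul, mul_comm]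
      _ ≤ ((t : ℝ) ^ (1 + 2 * ε)) ^ a := pow_le_pow_left₀ (by positivity) h a
      _ = (t : ℝ) ^ ((a : ℝ) * (1 + 2 * ε)) := by
          rw [← Real.rpow_natCast, ← Real.rpow_mul ht0.le, mul_comm]
      _ ≤ (t : ℝ) ^ (M * δ) := Real.rpow_le_rpow_of_exponent_le ht1 ha
      _ = ((t : ℝ) ^ δ) ^ M := by
          rw [← Real.rpow_natCast ((t : ℝ) ^ δ), ← Real.rpow_mul ht0.le, mul_comm]
  exact le_of_pow_le_pow_left₀ (by omega) (by positivity) h1

end Vale.Agent.P054.T2.H686
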