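import Vale.Agent.P054.T2.H83.Iso
import Vale.Agent.P054.T2.H83.NumC
import Vale.Agent.P054.T2.H686.Const

set_option autoImplicit false
set_option linter.all false

/-!
# P054 / T2, the frame: one inequality (sections A, B, C together) gives the induction step

`MainIneq n` is the statement which sections A, B and C have to prove together: natural numbers
only, no exponents `η`, and the bounds in smaller dimensions enter through the function `G`.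
-/

namespace Vale.Agent.P054.T2.H686

open Filter Topology Finset Module
open Vale.Agent.P054I Vale.Agent.P054K

/-- isotropic classes of dimension at most `2 σ` have at most `G σ` elements -/
def IsoB (n : ℕ) (P : Finset (E n)) (G : ℕ → ℕ) : Prop :=
  ∀ σ : ℕ, 1 ≤ σ → ∀ (B : E n ≃ₗᵢ[ℝ] E n)
    (V : Submodule ℝ ((Fin (n + 1) → ℝ) × (Fin (n + 1) → ℝ)))
    (z₀ : (Fin (n + 1) → ℝ) × (Fin (n + 1) → ℝ)),
    (∀ w ∈ V, Qf w = 0) → finrank ℝ V ≤ 2 * σ →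
    ∀ cl : Finset (E n × E n), cl ⊆ P ×ˢ P → (∀ r ∈ cl, zt B r - z₀ ∈ V) → cl.card ≤ G σ

/-- **the main inequality**, `b = β ^ L` the step of the scales, `K` their number, `T = b ^ k₀` the
scale of the window, `b ^ a` all losses (`a` depends on `n` only). -/
def MainIneq (n : ℕ) : Prop :=
  ∃ a : ℕ, ∀ m : ℕ, 1 ≤ m → ∀ K₁ : ℕ, ∃ K L β₀ : ℕ, K₁ ≤ K ∧ 1 ≤ L ∧ ∀ β : ℕ, β₀ ≤ β →
    ∀ (t : ℕ) (P : Finset (E n)) (G : ℕ → ℕ), 1 ≤ t → (dists P).card ≤ t →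
      t ^ (m + 1) ≤ (β ^ L) ^ (m * K) →
      2 ^ 18 * (12 * Real.log ((P.card : ℝ) + 1) + 1) ^ 2 ≤ (β : ℝ) →
      256 * (β + 2 * t + 1) ≤ P.card →
      IsoB n P G →
      ∃ σ₁ σ₂ e T : ℕ, σ₁ ≤ n ∧ σ₂ ≤ n ∧ e ≤ 2 * n + 1 ∧ T ≤ (β ^ L) ^ K ∧
        P.card ^ 4 ≤ t * (β ^ L) ^ a *
          (P.card ^ 2 * (T ^ (n - σ₁) * (t ^ σ₁ + G σ₁)) +
            P.card ^ 2 * (T ^ (n - σ₂) * (t ^ σ₂ + G σ₂)) + T ^ (2 * n + 1 - e) * t ^ e)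

/-- the bounds in smaller dimensions give `IsoB` -/
theorem isoB_of_bb {n t : ℕ} {C η : ℝ} (hC2 : 2 ≤ C) (ht1 : 1 ≤ t)
    (hC : ∀ m σ : ℕ, m < n + 1 → m ≤ 2 * σ → 1 ≤ σ → BB m t (C * (t : ℝ) ^ ((σ : ℝ) + η)))
    (P : Finset (E n)) (ht : (dists P).card ≤ t)
    (hP : (P.card : ℝ) ≤ 2 * (t : ℝ) ^ (((n + 1 : ℕ) : ℝ) / 2 + η)) :
    IsoB n P (fun σ => ⌊C * (t : ℝ) ^ ((σ : ℝ) + η)⌋₊) := by
  intro σ hσ B V z₀ hQ hV cl hcl hclV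
  exact Nat.le_floor (Vale.Agent.P054.T2.H83.card_class_iso hC2 ht1 hC le_rfl P B ht hP V hQ hσ hV
    cl hcl hclV)

/-- **FRAME**: the main inequality and the bounds in all smaller dimensions give the bound in
dimension `n + 1`. -/
theorem sex_of_main {n : ℕ} (hn : 3 ≤ n)
    (hI : ∀ m : ℕ, 2 ≤ m → m < n + 1 → Sex m (DC m) ((m : ℝ) / 2)) (hmain : MainIneq n) :
    Sex (n + 1) (DC (n + 1)) (((n + 1 : ℕ) : ℝ) / 2) := by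
  apply sex_of_contra'
  intro η hη hη1
  obtain ⟨a, ha⟩ := hmain
  obtain ⟨C, hC2, hC⟩ := Vale.Agent.P054.T2.H83.exists_iso_bound (n + 1) hI η hη
  have hnr : (3 : ℝ) ≤ n := by exact_mod_cast hn
  -- the small parameters
  set ε : ℝ := η / (8 * (2 * n + 1)) with hε
  set δ : ℝ := η / 8 with hδ
  have hε0 : 0 < ε := by positivity
  have hδ0 : 0 < δ := by positivity
  have hε1 : ε ≤ 1 / 56 := by
    rw [hε, div_le_div_iff₀ (by positivity) (by norm_num)]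
    nlinarith
  have hεη : 2 * ε * (2 * n + 1) ≤ η / 4 := by
    rw [hε]
    apply le_of_eq
    field_simp
    ring
  set m : ℕ := ⌈1 / ε⌉₊ with hm
  have hm1 : 1 / ε ≤ m := Nat.le_ceil _
  have hm0 : 1 ≤ m := by
    have : 0 < m := Nat.ceil_pos.2 (by positivity)
    exact this
  set K₁ : ℕ := ⌈(a : ℝ) * (1 + 2 * ε) / δ⌉₊ + 1 with hK₁
  obtain ⟨K, L, β₀, hK, hL1, hmain⟩ := ha m hm0 K₁
  have hK0 : 1 ≤ K := by omega
  have hKδ : (a : ℝ) * (1 + 2 * ε) ≤ K * δ := by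
    have h1 : (a : ℝ) * (1 + 2 * ε) / δ ≤ ⌈(a : ℝ) * (1 + 2 * ε) / δ⌉₊ := Nat.le_ceil _
    have h2 : (⌈(a : ℝ) * (1 + 2 * ε) / δ⌉₊ : ℝ) ≤ K := by
      have : ⌈(a : ℝ) * (1 + 2 * ε) / δ⌉₊ ≤ K := by omega
      exact_mod_cast this
    have h3 := h1.trans h2
    rwa [div_le_iff₀ hδ0] at h3
  have hM1 : 1 ≤ L * K := Nat.mul_pos hL1 hK0
  obtain ⟨T0, hT0, hβ⟩ := exists_beta (L * K) hM1 ε hε0 β₀ (n + 2)
  -- large `t`
  have hlarge : ∀ᶠ t : ℕ in atTop, 16 * (1 + C) < (t : ℝ) ^ (η / 2) :=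
    ((tendsto_rpow_atTop (by positivity)).comp tendsto_natCast_atTop_atTop).eventually_gt_atTop _
  obtain ⟨T1, hT1⟩ := eventually_atTop.1 hlarge
  refine ⟨max T0 (max T1 (2 ^ 20)), fun t ht ht1 P hPt hP1 hP2 => ?_⟩
  have htT0 : T0 ≤ t := (le_max_left _ _).trans ht
  have htT1 : T1 ≤ t := ((le_max_left _ _).trans (le_max_right _ _)).trans ht
  have ht20 : 2 ^ 20 ≤ t := ((le_max_right _ _).trans (le_max_right _ _)).trans ht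
  have htr : (1 : ℝ) ≤ t := by exact_mod_cast ht1
  have ht0 : (0 : ℝ) < t := by linarith
  obtain ⟨β, hβ0, hβ2, hβlo, hβup, hβlog⟩ := hβ t htT0
  set G : ℕ → ℕ := fun σ => ⌊C * (t : ℝ) ^ ((σ : ℝ) + η)⌋₊ with hG
  have hiso : IsoB n P G := isoB_of_bb hC2 ht1 (hC t ht1) P hPt hP2
  have hβr : (1 : ℝ) ≤ β := by
    have : 1 ≤ β := by omega
    exact_mod_cast this
  -- the scales reach `t ^ (1 + 1/m)`
  have hreach : t ^ (m + 1) ≤ (β ^ L) ^ (m * K) := by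
    have h1 : ((t : ℝ)) ^ (m + 1) ≤ ((β : ℝ) ^ (L * K)) ^ m := by
      calc ((t : ℝ)) ^ (m + 1) = (t : ℝ) ^ (((m + 1 : ℕ)) : ℝ) := (Real.rpow_natCast _ _).symm
        _ ≤ (t : ℝ) ^ ((1 + ε) * (m : ℝ)) := by
            apply Real.rpow_le_rpow_of_exponent_le htr
            have h2 : 1 ≤ ε * m := by
              rw [div_le_iff₀ hε0] at hm1
              linarith
            push_cast
            linarith
        _ = ((t : ℝ) ^ (1 + ε)) ^ m := by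
            rw [← Real.rpow_natCast ((t : ℝ) ^ (1 + ε)), ← Real.rpow_mul ht0.le]
        _ ≤ _ := pow_le_pow_left₀ (by positivity) hβlo m
    have h2 : t ^ (m + 1) ≤ (β ^ (L * K)) ^ m := by exact_mod_cast h1
    calc t ^ (m + 1) ≤ (β ^ (L * K)) ^ m := h2
      _ = (β ^ L) ^ (m * K) := by rw [← pow_mul, ← pow_mul]; congr 1; ring
  -- the logarithm
  have hlog : 2 ^ 18 * (12 * Real.log ((P.card : ℝ) + 1) + 1) ^ 2 ≤ (β : ℝ) := by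
    apply hβlog
    refine hP2.trans ?_
    have h1 : (t : ℝ) ^ (((n + 1 : ℕ) : ℝ) / 2 + η) ≤ (t : ℝ) ^ (((n + 2 : ℕ)) : ℝ) := by
      apply Real.rpow_le_rpow_of_exponent_le htr
      push_cast
      linarith
    rw [Real.rpow_natCast] at h1
    linarith
  -- many points
  have hmany : 256 * (β + 2 * t + 1) ≤ P.card := by
    have h1 : (β : ℝ) ≤ (t : ℝ) ^ (1 + 2 * ε) := by
      refine le_trans ?_ hβup
      exact le_self_pow₀ hβr (by omega)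
    have h2 : (t : ℝ) ≤ (t : ℝ) ^ (1 + 2 * ε) := by
      nth_rewrite 1 [← Real.rpow_one (t : ℝ)]
      exact Real.rpow_le_rpow_of_exponent_le htr (by linarith)
    have h3 : (1024 : ℝ) ≤ (t : ℝ) ^ ((1 : ℝ) / 2) := by
      have h4 : ((2 : ℝ) ^ 20) ^ ((1 : ℝ) / 2) ≤ (t : ℝ) ^ ((1 : ℝ) / 2) :=
        Real.rpow_le_rpow (by positivity) (by exact_mod_cast ht20) (by norm_num)
      have h5 : ((2 : ℝ) ^ 20) ^ ((1 : ℝ) / 2) = 1024 := by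
        rw [← Real.rpow_natCast, ← Real.rpow_mul (by norm_num)]
        norm_num
      linarith
    have h4 : (256 * ((β : ℝ) + 2 * t + 1)) ≤ P.card := by
      calc 256 * ((β : ℝ) + 2 * t + 1) ≤ 1024 * (t : ℝ) ^ (1 + 2 * ε) := by linarith
        _ ≤ (t : ℝ) ^ ((1 : ℝ) / 2) * (t : ℝ) ^ (1 + 2 * ε) := by gcongr
        _ = (t : ℝ) ^ ((1 : ℝ) / 2 + (1 + 2 * ε)) := (Real.rpow_add ht0 _ _).symm
        _ ≤ (t : ℝ) ^ (((n + 1 : ℕ) : ℝ) / 2 + η) := by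
            apply Real.rpow_le_rpow_of_exponent_le htr
            push_cast
            linarith
        _ ≤ P.card := hP1
    exact_mod_cast h4
  obtain ⟨σ₁, σ₂, e, T, hσ₁, hσ₂, he, hT, hfin⟩ := hmain β hβ0 t P G ht1 hPt hreach hlog hmany hiso
  -- the closing arithmetic
  have hGle : ∀ σ : ℕ, ((t ^ σ + G σ : ℕ) : ℝ) ≤ (1 + C) * (t : ℝ) ^ ((σ : ℝ) + η) := by
    intro σ
    have h1 : (G σ : ℝ) ≤ C * (t : ℝ) ^ ((σ : ℝ) + η) := Nat.floor_le (by positivity)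
    have h2 : ((t : ℝ)) ^ σ ≤ (t : ℝ) ^ ((σ : ℝ) + η) := by
      rw [← Real.rpow_natCast]
      exact Real.rpow_le_rpow_of_exponent_le htr (by linarith)
    push_cast
    linarith
  have hTr : (T : ℝ) ≤ (t : ℝ) ^ (1 + 2 * ε) := by
    refine le_trans ?_ hβup
    have : (T : ℝ) ≤ ((β : ℝ) ^ L) ^ K := by exact_mod_cast hT
    rwa [← pow_mul] at this
  have hLδ : ((β : ℝ) ^ L) ^ a ≤ (t : ℝ) ^ δ := by
    rw [← pow_mul]
    apply beta_pow_le ht1 hM1 hβup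
    push_cast
    have hLr : (0 : ℝ) ≤ L := Nat.cast_nonneg _
    nlinarith [mul_le_mul_of_nonneg_left hKδ hLr]
  have hL1' : 1 ≤ ((β : ℝ) ^ L) ^ a := one_le_pow₀ (one_le_pow₀ hβr)
  refine Vale.Agent.P054.T2.H83.numC (n := n) (η := η) (ε := ε) (δ := δ) (c := 1 + C) (t := t)
    (T := T) (L := ((β : ℝ) ^ L) ^ a) (p := P.card)
    (E' := (P.card : ℝ) ^ 2 * ((T : ℝ) ^ (n - σ₁) * ((t ^ σ₁ + G σ₁ : ℕ) : ℝ)) +
      (P.card : ℝ) ^ 2 * ((T : ℝ) ^ (n - σ₂) * ((t ^ σ₂ + G σ₂ : ℕ) : ℝ)) +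
      (T : ℝ) ^ (2 * n + 1 - e) * (t : ℝ) ^ e)
    (E₀ := ((β : ℝ) ^ L) ^ a * ((P.card : ℝ) ^ 2 * ((T : ℝ) ^ (n - σ₁) *
      ((t ^ σ₁ + G σ₁ : ℕ) : ℝ)) +
      (P.card : ℝ) ^ 2 * ((T : ℝ) ^ (n - σ₂) * ((t ^ σ₂ + G σ₂ : ℕ) : ℝ)) +
      (T : ℝ) ^ (2 * n + 1 - e) * (t : ℝ) ^ e))
    (DS := (T : ℝ) ^ (n - σ₁) * ((t ^ σ₁ + G σ₁ : ℕ) : ℝ))
    (DR := (T : ℝ) ^ (n - σ₂) * ((t ^ σ₂ + G σ₂ : ℕ) : ℝ))
    (DB := (T : ℝ) ^ (2 * n + 1 - e) * (t : ℝ) ^ e)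
    (σ₁ := σ₁) (σ₂ := σ₂) (e := e)
    hη hε0.le hεη (by rw [hδ]; linarith) (by linarith) htr (hT1 t htT1) (Nat.cast_nonneg _) hTr
    hL1' hLδ ?_ ?_ le_rfl hσ₁ hσ₂ he le_rfl ?_ ?_ ?_
  · have h1 := hP1
    push_cast at h1
    exact h1
  · have h1 : ((P.card : ℝ)) ^ 4 ≤ (t : ℝ) * (((β : ℝ) ^ L) ^ a *
        ((P.card : ℝ) ^ 2 * ((T : ℝ) ^ (n - σ₁) * ((t ^ σ₁ + G σ₁ : ℕ) : ℝ)) +
        (P.card : ℝ) ^ 2 * ((T : ℝ) ^ (n - σ₂) * ((t ^ σ₂ + G σ₂ : ℕ) : ℝ)) +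
        (T : ℝ) ^ (2 * n + 1 - e) * (t : ℝ) ^ e)) := by
      rw [← mul_assoc]
      exact_mod_cast hfin
    have h2 : 0 ≤ (t : ℝ) * (((β : ℝ) ^ L) ^ a *
        ((P.card : ℝ) ^ 2 * ((T : ℝ) ^ (n - σ₁) * ((t ^ σ₁ + G σ₁ : ℕ) : ℝ)) +
        (P.card : ℝ) ^ 2 * ((T : ℝ) ^ (n - σ₂) * ((t ^ σ₂ + G σ₂ : ℕ) : ℝ)) +
        (T : ℝ) ^ (2 * n + 1 - e) * (t : ℝ) ^ e)) := by positivity
    linarith
  · have h1 := hGle σ₁
    have hX : (0 : ℝ) ≤ (T : ℝ) ^ (n - σ₁) := by positivity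
    calc (T : ℝ) ^ (n - σ₁) * ((t ^ σ₁ + G σ₁ : ℕ) : ℝ)
        ≤ (T : ℝ) ^ (n - σ₁) * ((1 + C) * (t : ℝ) ^ ((σ₁ : ℝ) + η)) :=
          mul_le_mul_of_nonneg_left h1 hX
      _ = (1 + C) * 1 * ((T : ℝ) ^ (n - σ₁) * (t : ℝ) ^ ((σ₁ : ℝ) + η)) := by ring
      _ ≤ _ := by
          have : (0 : ℝ) ≤ 1 + C := by linarith
          gcongr
  · have h1 := hGle σ₂
    have hX : (0 : ℝ) ≤ (T : ℝ) ^ (n - σ₂) := by positivity
    calc (T : ℝ) ^ (n - σ₂) * ((t ^ σ₂ + G σ₂ : ℕ) : ℝ)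
        ≤ (T : ℝ) ^ (n - σ₂) * ((1 + C) * (t : ℝ) ^ ((σ₂ : ℝ) + η)) :=
          mul_le_mul_of_nonneg_left h1 hX
      _ = (1 + C) * 1 * ((T : ℝ) ^ (n - σ₂) * (t : ℝ) ^ ((σ₂ : ℝ) + η)) := by ring
      _ ≤ _ := by
          have : (0 : ℝ) ≤ 1 + C := by linarith
          gcongr
  · have h2 : ((t : ℝ)) ^ e ≤ (t : ℝ) ^ ((e : ℝ) + η) := by
      rw [← Real.rpow_natCast]
      exact Real.rpow_le_rpow_of_exponent_le htr (by linarith)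
    calc (T : ℝ) ^ (2 * n + 1 - e) * (t : ℝ) ^ e
        ≤ (T : ℝ) ^ (2 * n + 1 - e) * (t : ℝ) ^ ((e : ℝ) + η) := by gcongr
      _ = 1 * 1 * ((T : ℝ) ^ (2 * n + 1 - e) * (t : ℝ) ^ ((e : ℝ) + η)) := by ring
      _ ≤ _ := by
          have : (1 : ℝ) ≤ 1 + C := by linarith
          gcongr

/-- **the whole project**: `Sex 2`, `Sex 3` and the main inequality for all `n ≥ 3` -/
theorem lower_of_main (h2 : Sex 2 (DC 2) 1) (h3 : Sex 3 (DC 3) (3 / 2))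
    (hmain : ∀ n : ℕ, 3 ≤ n → MainIneq n) (d : ℕ) (hd : 2 ≤ d) (ε : ℝ) (hε : 0 < ε) :
    ∃ c : ℝ, 0 < c ∧ ∀ N : ℕ, 2 ≤ N →
      c * (N : ℝ) ^ (2 / (d : ℝ) - ε) ≤ ((g d N : ℕ) : ℝ) := by
  refine top_lower h2 h3 ?_ d hd ε hε
  intro d hd hI
  obtain ⟨n, rfl⟩ : ∃ n, d = n + 1 := ⟨d - 1, by omega⟩
  exact sex_of_main (by omega) hI (hmain n (by omega))

end Vale.Agent.P054.T2.H686
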