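import Mathlib

set_option autoImplicit false
set_option linter.all false

/-!
# P054 / T2, leaf (S-a): coordinates and leaves

`s = (ζ, θ)`, `ζ θ : Fin (n+1) → k` (`n + 1 = d`).  The space `F = k^(2n+1)` has coordinates
`(u, b, z)`, index type `Fin n ⊕ Fin n ⊕ Unit`.  The leaf of `s` is the affine `n`-flat
`{(u, ζ' - ζ₀ u, -θ₀ - ⟨θ', u⟩)}`.
-/

namespace Vale.Agent.P054.T2.H686

open MvPolynomial

/-- index type of the coordinates `(u, b, z)` of `F` -/
abbrev Crd (n : ℕ) := Fin n ⊕ Fin n ⊕ Unit

variable {k : Type*} [Field k] {n : ℕ}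

/-- the quadratic form `Q(s) = ⟨ζ, θ⟩` -/
def Qf (s : (Fin (n + 1) → k) × (Fin (n + 1) → k)) : k := ∑ i, s.1 i * s.2 i

/-- the parametrisation of the leaf `S_s` -/
def leaf (s : (Fin (n + 1) → k) × (Fin (n + 1) → k)) (u : Fin n → k) : Crd n → k
  | Sum.inl i => u i
  | Sum.inr (Sum.inl i) => s.1 i.succ - s.1 0 * u i
  | Sum.inr (Sum.inr _) => - s.2 0 - ∑ i : Fin n, s.2 i.succ * u i

/-- the direction space of the leaf `S_s` -/
def leafDir (s : (Fin (n + 1) → k) × (Fin (n + 1) → k)) : (Fin n → k) →ₗ[k] (Crd n → k) where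
  toFun w
    | Sum.inl i => w i
    | Sum.inr (Sum.inl i) => - (s.1 0 * w i)
    | Sum.inr (Sum.inr _) => - ∑ i : Fin n, s.2 i.succ * w i
  map_add' w w' := by
    funext x
    rcases x with i | i | i
    · rfl
    · simp only [Pi.add_apply]; ring
    · simp only [Pi.add_apply, mul_add, Finset.sum_add_distrib]; ring
  map_smul' c w := by
    funext x
    rcases x with i | i | i
    · rfl
    · simp only [Pi.smul_apply, smul_eq_mul, RingHom.id_apply]; ring
    · simp only [Pi.smul_apply, smul_eq_mul, RingHom.id_apply, Finset.mul_sum, mul_neg]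
      congr 1
      exact Finset.sum_congr rfl fun i _ => by ring

theorem leaf_add (s : (Fin (n + 1) → k) × (Fin (n + 1) → k)) (u w : Fin n → k) :
    leaf s (u + w) = leaf s u + leafDir s w := by
  funext x
  rcases x with i | i | i
  · rfl
  · simp only [leaf, leafDir, Pi.add_apply, LinearMap.coe_mk, AddHom.coe_mk]; ring
  · simp only [leaf, leafDir, Pi.add_apply, LinearMap.coe_mk, AddHom.coe_mk, mul_add,
      Finset.sum_add_distrib]; ring

theorem leaf_injective (s : (Fin (n + 1) → k) × (Fin (n + 1) → k)) :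
    Function.Injective (leaf s) := by
  intro u u' h
  funext i
  exact congrFun h (Sum.inl i)

theorem leafDir_injective (s : (Fin (n + 1) → k) × (Fin (n + 1) → k)) :
    Function.Injective (leafDir s) := by
  intro u u' h
  funext i
  exact congrFun h (Sum.inl i)

/-- transversality of leaves -/
theorem leafDir_eq {s r : (Fin (n + 1) → k) × (Fin (n + 1) → k)} (h0 : s.1 0 ≠ r.1 0)
    {w w' : Fin n → k} (h : leafDir s w = leafDir r w') : w = 0 ∧ w' = 0 := by
  have h1 : w = w' := by
    funext i
    exact congrFun h (Sum.inl i)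
  subst h1
  have h2 : ∀ i, w i = 0 := by
    intro i
    have h3 := congrFun h (Sum.inr (Sum.inl i))
    simp only [leafDir, LinearMap.coe_mk, AddHom.coe_mk] at h3
    have h4 : (s.1 0 - r.1 0) * w i = 0 := by linear_combination -h3
    rcases mul_eq_zero.1 h4 with h5 | h5
    · exact absurd (sub_eq_zero.1 h5) h0
    · exact h5
  exact ⟨funext h2, funext h2⟩

theorem disjoint_range_leafDir {s r : (Fin (n + 1) → k) × (Fin (n + 1) → k)}
    (h0 : s.1 0 ≠ r.1 0) :
    Disjoint (LinearMap.range (leafDir s)) (LinearMap.range (leafDir r)) := by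
  rw [Submodule.disjoint_def]
  rintro x ⟨w, rfl⟩ ⟨w', hw'⟩
  have := leafDir_eq h0 hw'.symm
  rw [this.1, map_zero]

/-- the `u`-coordinate of the meeting point of the leaves of `s` and `r` -/
def mu (s r : (Fin (n + 1) → k) × (Fin (n + 1) → k)) : Fin n → k :=
  fun i => (s.1 i.succ - r.1 i.succ) / (s.1 0 - r.1 0)

theorem mu_comm (s r : (Fin (n + 1) → k) × (Fin (n + 1) → k)) : mu s r = mu r s := by
  funext i
  simp only [mu]
  rw [← neg_sub (r.1 i.succ), ← neg_sub (r.1 0), neg_div_neg_eq]

/-- the meeting point of the leaves of `s` and `r` -/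
def meet (s r : (Fin (n + 1) → k) × (Fin (n + 1) → k)) : Crd n → k := leaf s (mu s r)

theorem leaf_eq_leaf_iff {s r : (Fin (n + 1) → k) × (Fin (n + 1) → k)} (h0 : s.1 0 ≠ r.1 0)
    (u u' : Fin n → k) :
    leaf s u = leaf r u' ↔ u = mu s r ∧ u' = mu s r ∧ Qf (s - r) = 0 := by
  have hne : s.1 0 - r.1 0 ≠ 0 := sub_ne_zero.2 h0
  have hQ : Qf (s - r) = (s.1 0 - r.1 0) *
      ((s.2 0 - r.2 0) + ∑ i : Fin n, (s.2 i.succ - r.2 i.succ) * mu s r i) := by
    simp only [Qf, Fin.sum_univ_succ, Prod.fst_sub, Prod.snd_sub, Pi.sub_apply, mu, mul_add,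
      Finset.mul_sum]
    congr 1
    refine Finset.sum_congr rfl fun i _ => ?_
    field_simp
  constructor
  · intro h
    have h1 : u = u' := by
      funext i
      exact congrFun h (Sum.inl i)
    subst h1
    have h2 : u = mu s r := by
      funext i
      have h3 := congrFun h (Sum.inr (Sum.inl i))
      simp only [leaf] at h3
      simp only [mu]
      rw [eq_div_iff hne]
      linear_combination -h3
    refine ⟨h2, h2, ?_⟩
    have h3 := congrFun h (Sum.inr (Sum.inr ()))
    simp only [leaf] at h3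
    rw [hQ, ← h2]
    have h4 : ∑ i : Fin n, (s.2 i.succ - r.2 i.succ) * u i =
        ∑ i : Fin n, s.2 i.succ * u i - ∑ i : Fin n, r.2 i.succ * u i := by
      rw [← Finset.sum_sub_distrib]
      exact Finset.sum_congr rfl fun i _ => by ring
    rw [h4]
    linear_combination (-(s.1 0 - r.1 0)) * h3
  · rintro ⟨rfl, rfl, hq⟩
    rw [hQ] at hq
    rcases mul_eq_zero.1 hq with h5 | h5
    · exact absurd h5 hne
    · have h4 : ∑ i : Fin n, (s.2 i.succ - r.2 i.succ) * mu s r i =
          ∑ i : Fin n, s.2 i.succ * mu s r i - ∑ i : Fin n, r.2 i.succ * mu s r i := by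
        rw [← Finset.sum_sub_distrib]
        exact Finset.sum_congr rfl fun i _ => by ring
      rw [h4] at h5
      funext x
      rcases x with i | i | i
      · rfl
      · simp only [leaf, mu]
        field_simp
        ring
      · simp only [leaf]
        linear_combination -h5

/-- adjacent points: the leaves meet in exactly one point -/
theorem meet_comm {s r : (Fin (n + 1) → k) × (Fin (n + 1) → k)} (h0 : s.1 0 ≠ r.1 0)
    (hq : Qf (s - r) = 0) : meet s r = meet r s := by
  unfold meet
  rw [mu_comm r s]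
  exact (leaf_eq_leaf_iff h0 _ _).2 ⟨rfl, rfl, hq⟩

theorem range_inter_range {s r : (Fin (n + 1) → k) × (Fin (n + 1) → k)} (h0 : s.1 0 ≠ r.1 0)
    (hq : Qf (s - r) = 0) : Set.range (leaf s) ∩ Set.range (leaf r) = {meet s r} := by
  ext x
  simp only [Set.mem_inter_iff, Set.mem_range, Set.mem_singleton_iff]
  constructor
  · rintro ⟨⟨u, rfl⟩, ⟨u', hu'⟩⟩
    obtain ⟨h1, -, -⟩ := (leaf_eq_leaf_iff h0 u u').1 hu'.symm
    rw [h1]; rfl
  · rintro rfl
    exact ⟨⟨_, rfl⟩, ⟨mu r s, (meet_comm h0 hq).symm⟩⟩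

theorem range_inter_range_of_ne {s r : (Fin (n + 1) → k) × (Fin (n + 1) → k)}
    (h0 : s.1 0 ≠ r.1 0)
    (hq : Qf (s - r) ≠ 0) : Set.range (leaf s) ∩ Set.range (leaf r) = ∅ := by
  ext x
  simp only [Set.mem_inter_iff, Set.mem_range, Set.mem_empty_iff_false, iff_false]
  rintro ⟨⟨u, rfl⟩, ⟨u', hu'⟩⟩
  exact hq ((leaf_eq_leaf_iff h0 u u').1 hu'.symm).2.2

/-- the point `g` of `F` is incident to `s` -/
def inc (s : (Fin (n + 1) → k) × (Fin (n + 1) → k)) (g : Crd n → k) : Prop :=
  (∀ i : Fin n, g (Sum.inr (Sum.inl i)) = s.1 i.succ - s.1 0 * g (Sum.inl i)) ∧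
    g (Sum.inr (Sum.inr ())) = - s.2 0 - ∑ i : Fin n, s.2 i.succ * g (Sum.inl i)

theorem inc_iff (s : (Fin (n + 1) → k) × (Fin (n + 1) → k)) (g : Crd n → k) :
    inc s g ↔ g ∈ Set.range (leaf s) := by
  constructor
  · rintro ⟨h1, h2⟩
    refine ⟨fun i => g (Sum.inl i), ?_⟩
    funext x
    rcases x with i | i | i
    · rfl
    · exact (h1 i).symm
    · exact h2.symm
  · rintro ⟨u, rfl⟩
    exact ⟨fun i => rfl, rfl⟩

/-- pull-back of polynomials of `F` to the leaf of `s` -/
noncomputable def pull (s : (Fin (n + 1) → k) × (Fin (n + 1) → k)) :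
    MvPolynomial (Crd n) k →ₐ[k] MvPolynomial (Fin n) k :=
  aeval fun x => match x with
    | Sum.inl i => X i
    | Sum.inr (Sum.inl i) => C (s.1 i.succ) - C (s.1 0) * X i
    | Sum.inr (Sum.inr _) => - C (s.2 0) - ∑ i : Fin n, C (s.2 i.succ) * X i

theorem eval_pull (s : (Fin (n + 1) → k) × (Fin (n + 1) → k)) (u : Fin n → k)
    (f : MvPolynomial (Crd n) k) : eval u (pull s f) = eval (leaf s u) f := by
  have : ((aeval u : MvPolynomial (Fin n) k →ₐ[k] k).comp (pull s)) =
      (aeval (leaf s u) : MvPolynomial (Crd n) k →ₐ[k] k) := by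
    apply algHom_ext
    intro x
    rcases x with i | i | i
    · simp [leaf, pull]
    · simp [leaf, pull]
    · simp [leaf, pull]
  have h := congrArg (fun φ : MvPolynomial (Crd n) k →ₐ[k] k => φ f) this
  simpa [AlgHom.comp_apply, aeval_eq_eval] using h

theorem totalDegree_linear_le (s : (Fin (n + 1) → k) × (Fin (n + 1) → k)) (x : Crd n) :
    (pull s (X x)).totalDegree ≤ 1 := by
  have hX : ∀ i : Fin n, (X i : MvPolynomial (Fin n) k).totalDegree ≤ 1 := fun i =>
    (totalDegree_X i).le
  have hCX : ∀ (c : k) (i : Fin n), (C c * X i : MvPolynomial (Fin n) k).totalDegree ≤ 1 := by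
    intro c i
    refine (totalDegree_mul _ _).trans ?_
    rw [totalDegree_C]
    simpa using hX i
  rcases x with i | i | i
  · simpa [pull] using hX i
  · simp only [pull, aeval_X]
    refine (totalDegree_sub _ _).trans (max_le ?_ (hCX _ _))
    rw [totalDegree_C]; exact Nat.zero_le _
  · simp only [pull, aeval_X]
    refine (totalDegree_sub _ _).trans (max_le ?_ ?_)
    · rw [totalDegree_neg, totalDegree_C]; exact Nat.zero_le _
    · refine (totalDegree_finset_sum _ _).trans (Finset.sup_le fun i _ => hCX _ _)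

theorem totalDegree_pull_le (s : (Fin (n + 1) → k) × (Fin (n + 1) → k))
    (f : MvPolynomial (Crd n) k) : (pull s f).totalDegree ≤ f.totalDegree := by
  conv_lhs => rw [f.as_sum, map_sum]
  refine (totalDegree_finset_sum _ _).trans (Finset.sup_le fun m hm => ?_)
  have h1 : pull s (monomial m (coeff m f)) =
      C (coeff m f) * ∏ x ∈ m.support, (pull s (X x)) ^ (m x) := by
    rw [monomial_eq, map_mul, Finsupp.prod, map_prod]
    simp only [map_pow]
    congr 1
    exact (pull s).commutes _
  rw [h1]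
  refine (totalDegree_mul _ _).trans ?_
  rw [totalDegree_C, zero_add]
  refine (totalDegree_finset_prod _ _).trans ?_
  refine le_trans (Finset.sum_le_sum fun x _ => (totalDegree_pow _ _).trans
    (Nat.mul_le_mul_left _ (totalDegree_linear_le s x))) ?_
  simp only [mul_one]
  exact le_totalDegree hm

/-- chain rule -/
theorem pderiv_pull (s : (Fin (n + 1) → k) × (Fin (n + 1) → k)) (i : Fin n)
    (f : MvPolynomial (Crd n) k) :
    pderiv i (pull s f) = pull s (pderiv (Sum.inl i) f) -
      C (s.1 0) * pull s (pderiv (Sum.inr (Sum.inl i)) f) -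
      C (s.2 i.succ) * pull s (pderiv (Sum.inr (Sum.inr ())) f) := by
  induction f using MvPolynomial.induction_on with
  | C a =>
    have : pull s (C a) = C a := (pull s).commutes a
    simp [this, pderiv_C]
  | add p q hp hq =>
    simp only [map_add, hp, hq, mul_add]
    ring
  | mul_X p x hp =>
    simp only [map_mul, Derivation.leibniz, smul_eq_mul, hp, map_add]
    have key : pderiv i (pull s (X x)) = pull s (pderiv (Sum.inl i) (X x)) -
        C (s.1 0) * pull s (pderiv (Sum.inr (Sum.inl i)) (X x)) -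
        C (s.2 i.succ) * pull s (pderiv (Sum.inr (Sum.inr ())) (X x)) := by
      rcases x with j | j | j
      · simp only [pull, aeval_X, pderiv_X]
        by_cases h : j = i
        · subst h; simp
        · simp [Pi.single_apply, h, Ne.symm h]
      · simp only [pull, aeval_X, pderiv_X, map_sub, pderiv_C, Derivation.leibniz, smul_eq_mul]
        by_cases h : j = i
        · subst h; simp
        · simp [Pi.single_apply, h, Ne.symm h]
      · simp only [pull, aeval_X, pderiv_X, map_sub, map_neg, pderiv_C, map_sum,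
          Derivation.leibniz, smul_eq_mul]
        simp [Pi.single_apply]
    rw [key]
    ring

/-- chain rule, evaluated: the derivative of `f` along the direction `leafDir s w` -/
theorem sum_pderiv_pull (s : (Fin (n + 1) → k) × (Fin (n + 1) → k)) (u w : Fin n → k)
    (f : MvPolynomial (Crd n) k) :
    ∑ i, w i * eval u (pderiv i (pull s f)) =
      ∑ x, leafDir s w x * eval (leaf s u) (pderiv x f) := by
  simp only [pderiv_pull, map_sub, map_mul, eval_pull, eval_C, Fintype.sum_sum_type,
    leafDir, LinearMap.coe_mk, AddHom.coe_mk, Finset.univ_unique, Finset.sum_singleton,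
    PUnit.default_eq_unit, mul_sub, Finset.sum_sub_distrib, neg_mul, Finset.sum_neg_distrib,
    Finset.sum_mul]
  rw [sub_eq_add_neg, sub_eq_add_neg, add_assoc]
  congr 2
  · congr 1
    exact Finset.sum_congr rfl fun i _ => by ring
  · congr 1
    exact Finset.sum_congr rfl fun i _ => by ring

end Vale.Agent.P054.T2.H686
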