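import Vale.Agent.P054.T2.H686.Pairs

set_option autoImplicit false
set_option linter.all false

/-!
# P054 / T2, leaf (FD): separation polynomials of degree `4 t`, pull-back along rational maps
-/

namespace Vale.Agent.P054.T2.H686

open MvPolynomial

variable {n : ℕ}

/-! ## general pull-back along a rational map with common denominator -/

section pullback

variable {k : Type*} [Field k] {σ τ : Type*}

/-- homogenised substitution of a polynomial of degree `≤ m`:
`F(u) = den(u)^m f(num(u)/den(u))` -/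
noncomputable def hsub (m : ℕ) (num : σ → MvPolynomial τ k) (den : MvPolynomial τ k)
    (f : MvPolynomial σ k) : MvPolynomial τ k :=
  ∑ a ∈ f.support, C (coeff a f) * (den ^ (m - a.degree) * a.prod fun i e => num i ^ e)

theorem totalDegree_hsub_le (m D : ℕ) (num : σ → MvPolynomial τ k) (den : MvPolynomial τ k)
    (hnum : ∀ i, (num i).totalDegree ≤ D) (hden : den.totalDegree ≤ D)
    (f : MvPolynomial σ k) (hf : f.totalDegree ≤ m) :
    (hsub m num den f).totalDegree ≤ m * D := by
  unfold hsub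
  refine (totalDegree_finset_sum _ _).trans (Finset.sup_le fun a ha => ?_)
  have ha' : a.degree ≤ m := by
    refine le_trans ?_ hf
    exact le_totalDegree ha
  refine (totalDegree_mul _ _).trans ?_
  rw [totalDegree_C, zero_add]
  refine (totalDegree_mul _ _).trans ?_
  have h1 : (den ^ (m - a.degree)).totalDegree ≤ (m - a.degree) * D :=
    (totalDegree_pow _ _).trans (Nat.mul_le_mul_left _ hden)
  have h2 : (a.prod fun i e => num i ^ e).totalDegree ≤ a.degree * D := by
    unfold Finsupp.prod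
    refine (totalDegree_finset_prod _ _).trans ?_
    refine (Finset.sum_le_sum fun x _ => (totalDegree_pow _ _).trans
      (Nat.mul_le_mul_left _ (hnum x))).trans ?_
    rw [← Finset.sum_mul]
    exact le_of_eq rfl
  calc _ ≤ (m - a.degree) * D + a.degree * D := add_le_add h1 h2
    _ = m * D := by rw [← add_mul, Nat.sub_add_cancel ha']

theorem eval_hsub (m : ℕ) (num : σ → MvPolynomial τ k) (den : MvPolynomial τ k)
    (f : MvPolynomial σ k) (hf : f.totalDegree ≤ m) (u : τ → k) (hu : eval u den ≠ 0) :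
    eval u (hsub m num den f) =
      eval u den ^ m * eval (fun i => eval u (num i) / eval u den) f := by
  unfold hsub
  rw [map_sum, eval_eq (X := _) (f := f), Finset.mul_sum]
  refine Finset.sum_congr rfl fun a ha => ?_
  have ha' : a.degree ≤ m := by
    refine le_trans ?_ hf
    exact le_totalDegree ha
  rw [map_mul, map_mul, map_pow, eval_C, Finsupp.prod, map_prod]
  simp only [map_pow]
  have h3 : ∏ i ∈ a.support, (eval u (num i) / eval u den) ^ a i =
      (∏ i ∈ a.support, eval u (num i) ^ a i) / eval u den ^ a.degree := by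
    simp only [div_pow, Finset.prod_div_distrib]
    congr 1
    rw [Finset.prod_pow_eq_pow_sum]
    rfl
  rw [h3]
  have h4 : eval u den ^ m = eval u den ^ (m - a.degree) * eval u den ^ a.degree := by
    rw [← pow_add, Nat.sub_add_cancel ha']
  rw [h4]
  field_simp

/-- if the points `r e` are separated by polynomials of degree `≤ m` and `r e` is a rational
function of degree `≤ D` of `u e` then the points `u e` are separated by polynomials of degree
`≤ m * D` -/
theorem separated_pullback {ι : Type*} (m D : ℕ) (num : σ → MvPolynomial τ k)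
    (den : MvPolynomial τ k)
    (hnum : ∀ i, (num i).totalDegree ≤ D) (hden : den.totalDegree ≤ D)
    (S : Set ι) (u : ι → τ → k) (r : ι → σ → k)
    (hu : ∀ e ∈ S, eval (u e) den ≠ 0)
    (hr : ∀ e ∈ S, ∀ i, r e i * eval (u e) den = eval (u e) (num i))
    (hsep : ∀ e ∈ S, ∃ f : MvPolynomial σ k, f.totalDegree ≤ m ∧ eval (r e) f ≠ 0 ∧
      ∀ e' ∈ S, e' ≠ e → eval (r e') f = 0) :
    ∀ e ∈ S, ∃ f : MvPolynomial τ k, f.totalDegree ≤ m * D ∧ eval (u e) f ≠ 0 ∧
      ∀ e' ∈ S, e' ≠ e → eval (u e') f = 0 := by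
  intro e he
  obtain ⟨f, hf, hf1, hf2⟩ := hsep e he
  have hre : ∀ e' ∈ S, (fun i => eval (u e') (num i) / eval (u e') den) = r e' := by
    intro e' he'
    funext i
    rw [div_eq_iff (hu e' he'), hr e' he' i]
  refine ⟨hsub m num den f, totalDegree_hsub_le m D num den hnum hden f hf, ?_, ?_⟩
  · rw [eval_hsub m num den f hf _ (hu e he), hre e he]
    exact mul_ne_zero (pow_ne_zero _ (hu e he)) hf1
  · intro e' he' hne
    rw [eval_hsub m num den f hf _ (hu e' he'), hre e' he', hf2 e' he' hne, mul_zero]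

end pullback

/-! ## separation polynomials -/

/-- `∑ (X_i - c_i)^2 - r` in the variables `L_i` (any polynomials of degree `≤ 1`) -/
noncomputable def sph {τ : Type*} (L : Fin (n + 1) → MvPolynomial τ ℝ) (c : Fin (n + 1) → ℝ)
    (r : ℝ) : MvPolynomial τ ℝ :=
  (∑ i, (L i - C (c i)) ^ 2) - C r

theorem totalDegree_sph_le {τ : Type*} (L : Fin (n + 1) → MvPolynomial τ ℝ)
    (hL : ∀ i, (L i).totalDegree ≤ 1) (c : Fin (n + 1) → ℝ) (r : ℝ) :
    (sph L c r).totalDegree ≤ 2 := by
  unfold sph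
  refine (totalDegree_sub _ _).trans (max_le ?_ (by rw [totalDegree_C]; exact Nat.zero_le _))
  refine (totalDegree_finset_sum _ _).trans (Finset.sup_le fun i _ => ?_)
  refine (totalDegree_pow _ _).trans ?_
  have : (L i - C (c i)).totalDegree ≤ 1 :=
    (totalDegree_sub _ _).trans (max_le (hL i) (by rw [totalDegree_C]; exact Nat.zero_le _))
  omega

/-- product over all distances of `P` -/
noncomputable def sepP {τ : Type*} (P : Finset (E n)) (L : Fin (n + 1) → MvPolynomial τ ℝ)
    (c : Fin (n + 1) → ℝ) : MvPolynomial τ ℝ :=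
  ∏ δ ∈ dists P, sph L c (δ ^ 2)

theorem totalDegree_sepP_le {τ : Type*} (P : Finset (E n))
    (L : Fin (n + 1) → MvPolynomial τ ℝ)
    (hL : ∀ i, (L i).totalDegree ≤ 1) (c : Fin (n + 1) → ℝ) :
    (sepP P L c).totalDegree ≤ 2 * (dists P).card := by
  unfold sepP
  refine (totalDegree_finset_prod _ _).trans ?_
  refine (Finset.sum_le_sum fun δ _ => totalDegree_sph_le L hL c _).trans ?_
  rw [Finset.sum_const, smul_eq_mul, mul_comm]

theorem eval_sepP {τ : Type*} (P : Finset (E n)) (L : Fin (n + 1) → MvPolynomial τ ℝ)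
    (u : τ → ℝ) (x y : E n) (hx : ∀ i, eval u (L i) = x i) :
    eval u (sepP P L (fun i => y i)) = ∏ δ ∈ dists P, (dist x y ^ 2 - δ ^ 2) := by
  unfold sepP sph
  rw [map_prod]
  refine Finset.prod_congr rfl fun δ _ => ?_
  rw [map_sub, map_sum, eval_C, EuclideanSpace.dist_eq, Real.sq_sqrt (by positivity)]
  congr 1
  refine Finset.sum_congr rfl fun i _ => ?_
  rw [map_pow, map_sub, hx, eval_C, Real.dist_eq, sq_abs]

theorem dist_mem_dists {P : Finset (E n)} {x y : E n} (hx : x ∈ P) (hy : y ∈ P) (h : x ≠ y) :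
    dist x y ∈ dists P := by
  classical
  unfold dists
  exact Finset.mem_image.2 ⟨(x, y), Finset.mem_offDiag.2 ⟨hx, hy, h⟩, rfl⟩

theorem pos_of_mem_dists {P : Finset (E n)} {δ : ℝ} (h : δ ∈ dists P) : 0 < δ := by
  classical
  unfold dists at h
  obtain ⟨p, hp, rfl⟩ := Finset.mem_image.1 h
  exact dist_pos.2 (Finset.mem_offDiag.1 hp).2.2

theorem prod_dists_ne_zero (P : Finset (E n)) (x : E n) :
    ∏ δ ∈ dists P, (dist x x ^ 2 - δ ^ 2) ≠ 0 := by
  rw [Finset.prod_ne_zero_iff]
  intro δ hδ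
  have := pos_of_mem_dists hδ
  rw [dist_self]
  nlinarith [sq_nonneg δ, pow_pos this 2]

theorem prod_dists_eq_zero {P : Finset (E n)} {x y : E n} (hx : x ∈ P) (hy : y ∈ P)
    (h : x ≠ y) : ∏ δ ∈ dists P, (dist x y ^ 2 - δ ^ 2) = 0 :=
  Finset.prod_eq_zero (dist_mem_dists hx hy h) (sub_self _)

/-- **(FD)** in the coordinates `(ζ, θ)`, index type `Fin (n+1) ⊕ Fin (n+1)` -/
theorem exists_sep (P : Finset (E n)) (B : E n ≃ₗᵢ[ℝ] E n) (s : E n × E n)
    (hs : s ∈ P ×ˢ P) :
    ∃ f : MvPolynomial (Fin (n + 1) ⊕ Fin (n + 1)) ℝ, f.totalDegree ≤ 4 * (dists P).card ∧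
      eval (Sum.elim (zt B s).1 (zt B s).2) f ≠ 0 ∧
      ∀ s' ∈ P ×ˢ P, s' ≠ s → eval (Sum.elim (zt B s').1 (zt B s').2) f = 0 := by
  classical
  set L1 : Fin (n + 1) → MvPolynomial (Fin (n + 1) ⊕ Fin (n + 1)) ℝ := fun i =>
    C (1 / 2) * (X (Sum.inl i) + X (Sum.inr i)) with hL1
  set L2 : Fin (n + 1) → MvPolynomial (Fin (n + 1) ⊕ Fin (n + 1)) ℝ := fun i =>
    C (1 / 2) * (X (Sum.inr i) - X (Sum.inl i)) with hL2
  have hd1 : ∀ i, (L1 i).totalDegree ≤ 1 := by
    intro i
    refine (totalDegree_mul _ _).trans ?_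
    rw [totalDegree_C, zero_add]
    exact (totalDegree_add _ _).trans (max_le (totalDegree_X _).le (totalDegree_X _).le)
  have hd2 : ∀ i, (L2 i).totalDegree ≤ 1 := by
    intro i
    refine (totalDegree_mul _ _).trans ?_
    rw [totalDegree_C, zero_add]
    exact (totalDegree_sub _ _).trans (max_le (totalDegree_X _).le (totalDegree_X _).le)
  have he1 : ∀ (s' : E n × E n) i,
      eval (Sum.elim (zt B s').1 (zt B s').2) (L1 i) = s'.1 i := by
    intro s' i
    simp only [hL1, map_mul, map_add, eval_C, eval_X, Sum.elim_inl, Sum.elim_inr, zt]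
    ring
  have he2 : ∀ (s' : E n × E n) i,
      eval (Sum.elim (zt B s').1 (zt B s').2) (L2 i) = (B s'.2) i := by
    intro s' i
    simp only [hL2, map_mul, map_sub, eval_C, eval_X, Sum.elim_inl, Sum.elim_inr, zt]
    ring
  refine ⟨sepP P L1 (fun i => s.1 i) * sepP P L2 (fun i => (B s.2) i), ?_, ?_, ?_⟩
  · refine (totalDegree_mul _ _).trans ?_
    have := totalDegree_sepP_le P L1 hd1 (fun i => s.1 i)
    have := totalDegree_sepP_le P L2 hd2 (fun i => (B s.2) i)
    omega
  · rw [map_mul, eval_sepP P L1 _ s.1 s.1 (he1 s), eval_sepP P L2 _ (B s.2) (B s.2) (he2 s)]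
    exact mul_ne_zero (prod_dists_ne_zero P _) (prod_dists_ne_zero P _)
  · intro s' hs' hne
    rw [map_mul, eval_sepP P L1 _ s'.1 s.1 (he1 s'), eval_sepP P L2 _ (B s'.2) (B s.2) (he2 s'),
      B.dist_map]
    rw [Finset.mem_product] at hs hs'
    by_cases h1 : s'.1 = s.1
    · have h2 : s'.2 ≠ s.2 := fun h2 => hne (Prod.ext h1 h2)
      rw [prod_dists_eq_zero hs'.2 hs.2 h2, mul_zero]
    · rw [prod_dists_eq_zero hs'.1 hs.1 h1, zero_mul]

end Vale.Agent.P054.T2.H686
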