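import Vale.Agent.P054.T2.H686.EW2
import Vale.Agent.P054.T2.H307.Sum
import Vale.Agent.P054.T2.H307.Unif

set_option autoImplicit false
set_option linter.all false

/-!
# P054 / T2, section A: the tight window, from (LO) + contagion + (U) + slope inequality
-/

namespace Vale.Agent.P054.T2.H686

open Finset MvPolynomial Module
open Vale.Agent.P054.T2.H307 (van gr gsp mem_van van_mono grad_mem_gsp gr_le gr_mono
  tight_window_of_rank IsUnif)
open Vale.Agent.P054.T2.H441 (rkY)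

variable {K : Type*} [Field K] {n : ℕ} {S : Type*}
  (z : S → (Fin (n + 1) → K) × (Fin (n + 1) → K))

/-- **rank inequality of section A**: the three total-degree families on the real edges `E`.
`Λ` = `|Sg|² / |E|`, `c₀` = loss of the lower bound (LO). -/
theorem rank_ineq [Infinite K] [DecidableEq S] [DecidableEq (Fin n → K)]
    [DecidableEq (Crd n → K)] (Sg : Finset S)
    (E : Finset (S × S)) (hS1 : ∀ e ∈ E, e.1 ∈ Sg) (hS2 : ∀ e ∈ E, e.2 ∈ Sg) (hE : E.Nonempty) (h0 : ∀ e ∈ E, (z e.1).1 0 ≠ (z e.2).1 0)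
    (hq : ∀ e ∈ E, Qf (z e.1 - z e.2) = 0) (b K' c₀ Λ : ℕ) (hb : 1 ≤ b)
    (hΛ : Sg.card ^ 2 ≤ Λ * E.card) (vF v1 v2 : ℕ → ℕ)
    (hv1 : ∀ k l : ℕ, k ≤ l → l < K' → v1 k ≤ v1 l)
    (hv2 : ∀ k l : ℕ, k ≤ l → l < K' → v2 k ≤ v2 l)
    (hgr1 : ∀ k < K', ∀ e ∈ E, v1 k ≤ gr (upt z) (E.filter fun x => x.1 = e.1)
      (restrictTotalDegree (Fin n) K (b ^ k)) (upt z e))
    (hgr2 : ∀ k < K', ∀ e ∈ E, v2 k ≤ gr (upt z) (E.filter fun x => x.2 = e.2)
      (restrictTotalDegree (Fin n) K (b ^ k)) (upt z e))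
    (hLO : ∀ A ⊆ E, E.card ≤ 2 * A.card →
      b ^ (∑ k ∈ range K', ((2 * n + 1) - vF k)) ≤ c₀ * rkY (A.image (gpt z)) (b ^ K')) :
    b ^ (∑ k ∈ range K', ((2 * n + 1) - vF k)) ≤
      c₀ * (8 * Λ * ((2 * (n + 1)) ^ n) ^ 2) *
        b ^ (∑ k ∈ range K', ((n - v1 k) + (n - v2 k))) := by
  classical
  have hN : Fintype.card (Fin n) = n := Fintype.card_fin n
  obtain ⟨e₀, he₀⟩ := hE
  have hb1 : ∀ k < K', v1 k ≤ n := fun k hk => by
    have h := (hgr1 k hk e₀ he₀).trans (gr_le _ _ _ _)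
    rwa [hN] at h
  have hb2 : ∀ k < K', v2 k ≤ n := fun k hk => by
    have h := (hgr2 k hk e₀ he₀).trans (gr_le _ _ _ _)
    rwa [hN] at h
  obtain ⟨E', hE', hc, hr⟩ := contagion_edges_set z Sg E hS1 hS2 h0 hq (b ^ K')
    ((2 * (n + 1)) ^ n * b ^ (∑ k ∈ range K', (n - v1 k)))
    ((2 * (n + 1)) ^ n * b ^ (∑ k ∈ range K', (n - v2 k)))
    (by
      intro s _
      have h := rkY_upper (upt z) (E.filter fun e => e.1 = s) b hb K' v1 hv1
        (by rw [hN]; exact hb1)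
        (by
          intro k hk e he
          obtain ⟨he1, he2⟩ := Finset.mem_filter.1 he
          have := hgr1 k hk e he1
          rwa [he2] at this)
      rwa [hN] at h)
    (by
      intro r _
      have h := rkY_upper (upt z) (E.filter fun e => e.2 = r) b hb K' v2 hv2
        (by rw [hN]; exact hb2)
        (by
          intro k hk e he
          obtain ⟨he1, he2⟩ := Finset.mem_filter.1 he
          have := hgr2 k hk e he1
          rwa [he2] at this)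
      rwa [hN] at h)
  have hEpos : 0 < E.card := Finset.card_pos.2 ⟨e₀, he₀⟩
  set c₁ := (2 * (n + 1)) ^ n with hc₁
  set s₁ := ∑ k ∈ range K', (n - v1 k) with hs₁
  set s₂ := ∑ k ∈ range K', (n - v2 k) with hs₂
  have hrk : rkY (E'.image (gpt z)) (b ^ K') ≤ 8 * Λ * c₁ ^ 2 * b ^ (s₁ + s₂) := by
    refine Nat.le_of_mul_le_mul_left (hr.trans ?_) hEpos
    calc 8 * (Sg.card ^ 2 * (c₁ * b ^ s₁ * (c₁ * b ^ s₂)))
        = Sg.card ^ 2 * (8 * c₁ ^ 2 * b ^ (s₁ + s₂)) := by rw [pow_add]; ring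
      _ ≤ (Λ * E.card) * (8 * c₁ ^ 2 * b ^ (s₁ + s₂)) := Nat.mul_le_mul_right _ hΛ
      _ = E.card * (8 * Λ * c₁ ^ 2 * b ^ (s₁ + s₂)) := by ring
  have hsum : ∑ k ∈ range K', ((n - v1 k) + (n - v2 k)) = s₁ + s₂ := Finset.sum_add_distrib
  rw [hsum]
  calc b ^ (∑ k ∈ range K', ((2 * n + 1) - vF k)) ≤ c₀ * rkY (E'.image (gpt z)) (b ^ K') :=
        hLO E' hE' hc
    _ ≤ c₀ * (8 * Λ * c₁ ^ 2 * b ^ (s₁ + s₂)) := Nat.mul_le_mul_left _ hrk
    _ = _ := by ring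

/-- **TIGHT WINDOW.**  Real edges `E`, with uniform values `vF`, `v1`, `v2` of the gradient ranks of
the three total-degree families at the scales `b ^ k` (lower bounds at all edges, equality for `1`
and `2` at one edge), the lower bound (LO) for dense subsets of `E`, and `b ^ K' ≥ t ^ (1 + 1/m)`:
there is a window of `W` consecutive scales on which the three values are constant and
`2 n + 1 - vF = (n - v1) + (n - v2)`. -/
theorem tight_window_edges [Infinite K] [DecidableEq S] [DecidableEq (Fin n → K)]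
    [DecidableEq (Crd n → K)] (Sg : Finset S)
    (E : Finset (S × S)) (hS1 : ∀ e ∈ E, e.1 ∈ Sg) (hS2 : ∀ e ∈ E, e.2 ∈ Sg) (h0 : ∀ e ∈ E, (z e.1).1 0 ≠ (z e.2).1 0)
    (hq : ∀ e ∈ E, Qf (z e.1 - z e.2) = 0) (b t K' m c₀ Λ C W : ℕ) (hb : 2 ≤ b)
    (hΛ : Sg.card ^ 2 ≤ Λ * E.card) (vF v1 v2 : ℕ → ℕ)
    (hvF : ∀ k l : ℕ, k ≤ l → l < K' → vF k ≤ vF l)
    (hv1 : ∀ k l : ℕ, k ≤ l → l < K' → v1 k ≤ v1 l)
    (hv2 : ∀ k l : ℕ, k ≤ l → l < K' → v2 k ≤ v2 l)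
    (hgrF : ∀ k < K', ∀ e ∈ E, vF k ≤ gr (gpt z) E
      (restrictTotalDegree (Crd n) K (b ^ k)) (gpt z e))
    (hgr1 : ∀ k < K', ∀ e ∈ E, v1 k ≤ gr (upt z) (E.filter fun x => x.1 = e.1)
      (restrictTotalDegree (Fin n) K (b ^ k)) (upt z e))
    (hgr2 : ∀ k < K', ∀ e ∈ E, v2 k ≤ gr (upt z) (E.filter fun x => x.2 = e.2)
      (restrictTotalDegree (Fin n) K (b ^ k)) (upt z e))
    (hex : ∃ e ∈ E, ∀ k < K',
      gr (upt z) (E.filter fun x => x.1 = e.1)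
        (restrictTotalDegree (Fin n) K (b ^ k)) (upt z e) ≤ v1 k ∧
      gr (upt z) (E.filter fun x => x.2 = e.2)
        (restrictTotalDegree (Fin n) K (b ^ k)) (upt z e) ≤ v2 k)
    (hLO : ∀ A ⊆ E, E.card ≤ 2 * A.card →
      b ^ (∑ k ∈ range K', ((2 * n + 1) - vF k)) ≤ c₀ * rkY (A.image (gpt z)) (b ^ K'))
    (hC : c₀ * (8 * Λ * ((2 * (n + 1)) ^ n) ^ 2) ≤ t * b ^ C)
    (ht : t ^ (m + 1) ≤ b ^ (m * K'))
    (hK : (m + 1) * (C + (3 * (2 * n + 1) + 1) * W) ≤ K') :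
    ∃ k₀, k₀ + W ≤ K' ∧ ∀ k, k₀ ≤ k → k < k₀ + W →
      vF k = vF k₀ ∧ v1 k = v1 k₀ ∧ v2 k = v2 k₀ ∧
      (2 * n + 1) - vF k = (n - v1 k) + (n - v2 k) := by
  classical
  obtain ⟨e₀, he₀, hex⟩ := hex
  have hbF : ∀ k < K', vF k ≤ 2 * n + 1 := fun k hk => by
    have h := (hgrF k hk e₀ he₀).trans (gr_le _ _ _ _)
    rwa [card_Crd] at h
  have hb1 : ∀ k < K', v1 k ≤ n := fun k hk => by
    have h := (hgr1 k hk e₀ he₀).trans (gr_le _ _ _ _)
    rwa [Fintype.card_fin] at h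
  have hb2 : ∀ k < K', v2 k ≤ n := fun k hk => by
    have h := (hgr2 k hk e₀ he₀).trans (gr_le _ _ _ _)
    rwa [Fintype.card_fin] at h
  have hrank := rank_ineq z Sg E hS1 hS2 ⟨e₀, he₀⟩ h0 hq b K' c₀ Λ (by omega) hΛ vF v1 v2 hv1 hv2 hgr1 hgr2 hLO
  obtain ⟨k₀, hk₀, hw⟩ := tight_window_of_rank b t K' m C (2 * n + 1) W hb
    (fun k => (2 * n + 1) - vF k) (fun k => n - v1 k) (fun k => n - v2 k)
    (fun k l h1 h2 => by have := hvF k l h1 h2; omega)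
    (fun k l h1 h2 => by have := hv1 k l h1 h2; omega)
    (fun k l h1 h2 => by have := hv2 k l h1 h2; omega)
    (by omega) (by omega) (by omega)
    (by
      intro k hk
      have h1 := slope_edge z E h0 hq (b ^ k) he₀
      have h2 := hex k hk
      have h3 := hgrF k hk e₀ he₀
      omega)
    (by
      refine hrank.trans ((Nat.mul_le_mul_right _ hC).trans (le_of_eq ?_))
      rw [pow_add]; ring)
    ht hK
  refine ⟨k₀, hk₀, fun k hk1 hk2 => ?_⟩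
  obtain ⟨h1, h2, h3, h4⟩ := hw k hk1 hk2

  have a1 := hbF k (by omega)
  have a2 := hbF k₀ (by omega)
  have a3 := hb1 k (by omega)
  have a4 := hb1 k₀ (by omega)
  have a5 := hb2 k (by omega)
  have a6 := hb2 k₀ (by omega)
  exact ⟨by omega, by omega, by omega, h4⟩

/-! ## uniform sets -/

section unif

variable {ι κ : Type*} {c : κ → Finset ι → ι → ℕ} {J : Finset κ} {β : ℕ} {E' : Finset ι}
  {v : κ → ℕ}

/-- a uniform set has an edge at which all values are the uniform ones -/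
theorem exists_typical (h : IsUnif c J β E' v)
    (hmono : ∀ j ∈ J, ∀ A B : Finset ι, A ⊆ B → B ⊆ E' → ∀ e ∈ A, c j B e ≤ c j A e)
    (hE : E'.Nonempty) (hβ : J.card < β) : ∃ e ∈ E', ∀ j ∈ J, c j E' e = v j := by
  classical
  by_contra hcon
  push Not at hcon
  have h1 := h.card_ne hmono (Finset.Subset.refl E')
  have h2 : E'.filter (fun e => ∃ j ∈ J, c j E' e ≠ v j) = E' := by
    rw [Finset.filter_eq_self]
    exact hcon
  rw [h2] at h1
  have h3 := Nat.le_of_mul_le_mul_right h1 (Finset.card_pos.2 hE)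
  omega

/-- the uniform values are ordered like the functions -/
theorem unif_mono_val (h : IsUnif c J β E' v) (hE : E'.Nonempty) (hβ : 2 ≤ β) {i j : κ}
    (hi : i ∈ J) (hj : j ∈ J) (hij : ∀ e ∈ E', c i E' e ≤ c j E' e) : v i ≤ v j := by
  by_contra hcon
  push Not at hcon
  have h1 := h.small j hj E' (Finset.Subset.refl E') (fun e he =>
    lt_of_lt_of_le hcon ((h.le i hi E' (Finset.Subset.refl E') e he).trans (hij e he)))
  have h2 : 2 * E'.card ≤ β * E'.card := Nat.mul_le_mul_right _ hβ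
  have h3 := Finset.card_pos.2 hE
  omega

end unif

theorem rtd_mono {σ : Type*} {a b : ℕ} (h : a ≤ b) :
    restrictTotalDegree σ K a ≤ restrictTotalDegree σ K b := by
  intro g hg
  rw [mem_restrictTotalDegree] at hg ⊢
  exact hg.trans h

/-- **TIGHT WINDOW on a uniform set.** -/
theorem tight_window_unif [Infinite K] [DecidableEq S] [DecidableEq (Fin n → K)]
    [DecidableEq (Crd n → K)] {κ : Type*} (Sg : Finset S)
    (c : κ → Finset (S × S) → S × S → ℕ) (J : Finset κ) (β : ℕ) (E : Finset (S × S))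
    (v : κ → ℕ) (hU : IsUnif c J β E v)
    (hmono : ∀ j ∈ J, ∀ A B : Finset (S × S), A ⊆ B → B ⊆ E → ∀ e ∈ A, c j B e ≤ c j A e)
    (hβ2 : 2 ≤ β) (hβ : J.card < β) (hE : E.Nonempty)
    (hS1 : ∀ e ∈ E, e.1 ∈ Sg) (hS2 : ∀ e ∈ E, e.2 ∈ Sg)
    (h0 : ∀ e ∈ E, (z e.1).1 0 ≠ (z e.2).1 0)
    (hq : ∀ e ∈ E, Qf (z e.1 - z e.2) = 0) (b t K' m c₀ Λ C W : ℕ) (hb : 2 ≤ b)
    (hΛ : Sg.card ^ 2 ≤ Λ * E.card) (jF j1 j2 : ℕ → κ)
    (hjF : ∀ k < K', jF k ∈ J) (hj1 : ∀ k < K', j1 k ∈ J) (hj2 : ∀ k < K', j2 k ∈ J)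
    (hcF : ∀ k < K', ∀ e ∈ E, c (jF k) E e = gr (gpt z) E
      (restrictTotalDegree (Crd n) K (b ^ k)) (gpt z e))
    (hc1 : ∀ k < K', ∀ e ∈ E, c (j1 k) E e = gr (upt z) (E.filter fun x => x.1 = e.1)
      (restrictTotalDegree (Fin n) K (b ^ k)) (upt z e))
    (hc2 : ∀ k < K', ∀ e ∈ E, c (j2 k) E e = gr (upt z) (E.filter fun x => x.2 = e.2)
      (restrictTotalDegree (Fin n) K (b ^ k)) (upt z e))
    (hLO : ∀ A ⊆ E, E.card ≤ 2 * A.card →
      b ^ (∑ k ∈ range K', ((2 * n + 1) - v (jF k))) ≤ c₀ * rkY (A.image (gpt z)) (b ^ K'))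
    (hC : c₀ * (8 * Λ * ((2 * (n + 1)) ^ n) ^ 2) ≤ t * b ^ C)
    (ht : t ^ (m + 1) ≤ b ^ (m * K'))
    (hK : (m + 1) * (C + (3 * (2 * n + 1) + 1) * W) ≤ K') :
    ∃ k₀, k₀ + W ≤ K' ∧ ∀ k, k₀ ≤ k → k < k₀ + W →
      v (jF k) = v (jF k₀) ∧ v (j1 k) = v (j1 k₀) ∧ v (j2 k) = v (j2 k₀) ∧
      (2 * n + 1) - v (jF k) = (n - v (j1 k)) + (n - v (j2 k)) := by
  classical
  obtain ⟨e₀, he₀, hty⟩ := exists_typical hU hmono hE hβ
  have hb' : 1 ≤ b := by omega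
  refine tight_window_edges z Sg E hS1 hS2 h0 hq b t K' m c₀ Λ C W hb hΛ (fun k => v (jF k))
    (fun k => v (j1 k)) (fun k => v (j2 k)) ?_ ?_ ?_ ?_ ?_ ?_ ⟨e₀, he₀, ?_⟩ hLO hC ht hK
  · intro k l hkl hl
    refine unif_mono_val hU hE hβ2 (hjF k (by omega)) (hjF l hl) fun e he => ?_
    rw [hcF k (by omega) e he, hcF l hl e he]
    exact gr_mono (Finset.Subset.refl _) (rtd_mono (Nat.pow_le_pow_right hb' hkl)) _
  · intro k l hkl hl
    refine unif_mono_val hU hE hβ2 (hj1 k (by omega)) (hj1 l hl) fun e he => ?_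
    rw [hc1 k (by omega) e he, hc1 l hl e he]
    exact gr_mono (Finset.Subset.refl _) (rtd_mono (Nat.pow_le_pow_right hb' hkl)) _
  · intro k l hkl hl
    refine unif_mono_val hU hE hβ2 (hj2 k (by omega)) (hj2 l hl) fun e he => ?_
    rw [hc2 k (by omega) e he, hc2 l hl e he]
    exact gr_mono (Finset.Subset.refl _) (rtd_mono (Nat.pow_le_pow_right hb' hkl)) _
  · intro k hk e he
    rw [← hcF k hk e he]
    exact hU.le _ (hjF k hk) E (Finset.Subset.refl _) e he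
  · intro k hk e he
    rw [← hc1 k hk e he]
    exact hU.le _ (hj1 k hk) E (Finset.Subset.refl _) e he
  · intro k hk e he
    rw [← hc2 k hk e he]
    exact hU.le _ (hj2 k hk) E (Finset.Subset.refl _) e he
  · intro k hk
    refine ⟨?_, ?_⟩
    · rw [← hc1 k hk e₀ he₀, hty _ (hj1 k hk)]
    · rw [← hc2 k hk e₀ he₀, hty _ (hj2 k hk)]

end Vale.Agent.P054.T2.H686
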