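import Vale.Agent.P054.T2.H588.Iso
import Vale.Agent.P054.T2.H269.S1
import Vale.Agent.P054.T2.H428.SecC
import Vale.Agent.P054.T2.H455.Sep
import Vale.Agent.P054.T2.H686.Sep
import Vale.Agent.P054.T2.H686.TightWin

set_option autoImplicit false
set_option linter.all false

/-!
# P054 / T2, assembly (1): generic isometry, the edges in the coordinates `(ζ, θ)`, separation
-/

namespace Vale.Agent.P054.T2.H686

open Finset MvPolynomial Module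
open Vale.Agent.P054.T2.SecC (ZI ZZ pt HL swp mem_swp)
open Vale.Agent.P054.T2.H588 (GI kP KK KK_kP mat exists_GI)
open Vale.Agent.P054.T2.H269 (edges₀ mem_edges₀ edges₀_subset edges₀_symm card_edges₀ onLine)
open Vale.Agent.P054.T2.H441 (rkY)

variable {n : ℕ}

/-! ## generic isometries -/

/-- everything that is used about the isometry `B`; `k = kP P` is the field of the coordinates -/
structure Gm (P : Finset (E n)) (B : E n ≃ₗᵢ[ℝ] E n) : Prop where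
  gi : GI (kP P) B
  der : ∀ O : Matrix (Fin (n + 1)) (Fin (n + 1)) ℝ, O.transpose = -O →
    ∃ D : Derivation (kP P) ℝ ℝ, ∀ i j, D (mat B i j) = (mat B * O) i j
  gi' : ∀ k' : Subfield ℝ, (∀ x ∈ k', ∀ D : Derivation (kP P) ℝ ℝ, D x = 0) → GI k' B

theorem exists_Gm (P : Finset (E n)) : ∃ B : E n ≃ₗᵢ[ℝ] E n, Gm P B := by
  obtain ⟨B, -, h2, h3, h4⟩ := exists_GI (n := n) (kP P) (e := 1) (Or.inl rfl)
  exact ⟨B, h2, h3, h4⟩

/-! ## pairs of points and edges in the coordinates `(ζ, θ)` -/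

/-- the pairs of points of `P` in the coordinates `(ζ, θ)` -/
noncomputable def Sz (P : Finset (E n)) (B : E n ≃ₗᵢ[ℝ] E n) : Finset (ZZ n) := by
  classical
  exact (P ×ˢ P).image (zt B)

theorem mem_Sz {P : Finset (E n)} {B : E n ≃ₗᵢ[ℝ] E n} {z : ZZ n} :
    z ∈ Sz P B ↔ ∃ s ∈ P ×ˢ P, zt B s = z := by
  classical
  simp only [Sz, Finset.mem_image]

theorem card_Sz (P : Finset (E n)) (B : E n ≃ₗᵢ[ℝ] E n) : (Sz P B).card = P.card ^ 2 := by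
  classical
  unfold Sz
  rw [Finset.card_image_of_injective _ (zt_injective B), Finset.card_product, sq]

/-- the edges of `E₀` in the coordinates `(ζ, θ)` -/
noncomputable def Ez (P : Finset (E n)) (B : E n ≃ₗᵢ[ℝ] E n) (C : ℕ) : Finset (ZZ n × ZZ n) := by
  classical
  exact (edges₀ P C).image fun e => (zt B e.1, zt B e.2)

theorem mem_Ez {P : Finset (E n)} {B : E n ≃ₗᵢ[ℝ] E n} {C : ℕ} {e : ZZ n × ZZ n} :
    e ∈ Ez P B C ↔ ∃ a ∈ edges₀ P C, (zt B a.1, zt B a.2) = e := by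
  classical
  simp only [Ez, Finset.mem_image]

theorem mem_Ez' {P : Finset (E n)} {B : E n ≃ₗᵢ[ℝ] E n} {C : ℕ} {s r : E n × E n} :
    (zt B s, zt B r) ∈ Ez P B C ↔ (s, r) ∈ edges₀ P C := by
  rw [mem_Ez]
  constructor
  · rintro ⟨a, ha, h⟩
    have h1 := congrArg Prod.fst h
    have h2 := congrArg Prod.snd h
    have h3 : a.1 = s := zt_injective B h1
    have h4 : a.2 = r := zt_injective B h2
    rwa [← h3, ← h4]
  · intro h
    exact ⟨(s, r), h, rfl⟩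

theorem card_Ez (P : Finset (E n)) (B : E n ≃ₗᵢ[ℝ] E n) (C : ℕ) :
    (Ez P B C).card = (edges₀ P C).card := by
  classical
  unfold Ez
  refine Finset.card_image_of_injective _ ?_
  intro a b h
  exact Prod.ext (zt_injective B (congrArg Prod.fst h)) (zt_injective B (congrArg Prod.snd h))

theorem Ez_swap {P : Finset (E n)} {B : E n ≃ₗᵢ[ℝ] E n} {C : ℕ} {e : ZZ n × ZZ n}
    (h : e ∈ Ez P B C) : e.swap ∈ Ez P B C := by
  obtain ⟨a, ha, rfl⟩ := mem_Ez.1 h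
  exact mem_Ez.2 ⟨(a.2, a.1), edges₀_symm ha, rfl⟩

theorem Ez_pairs {P : Finset (E n)} {B : E n ≃ₗᵢ[ℝ] E n} {C : ℕ} {e : ZZ n × ZZ n}
    (h : e ∈ Ez P B C) : ∃ s ∈ P ×ˢ P, ∃ r ∈ P ×ˢ P, e = (zt B s, zt B r) ∧
      (s, r) ∈ edges₀ P C := by
  obtain ⟨a, ha, rfl⟩ := mem_Ez.1 h
  have h1 := (mem_edges.1 (edges₀_subset P C ha)).1
  exact ⟨a.1, Finset.mem_product.2 h1.1, a.2, Finset.mem_product.2 h1.2, rfl, ha⟩

theorem Ez_fst {P : Finset (E n)} {B : E n ≃ₗᵢ[ℝ] E n} {C : ℕ} {e : ZZ n × ZZ n}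
    (h : e ∈ Ez P B C) : e.1 ∈ Sz P B := by
  obtain ⟨s, hs, r, -, rfl, -⟩ := Ez_pairs h
  exact mem_Sz.2 ⟨s, hs, rfl⟩

theorem Ez_snd {P : Finset (E n)} {B : E n ≃ₗᵢ[ℝ] E n} {C : ℕ} {e : ZZ n × ZZ n}
    (h : e ∈ Ez P B C) : e.2 ∈ Sz P B := by
  obtain ⟨s, -, r, hr, rfl, -⟩ := Ez_pairs h
  exact mem_Sz.2 ⟨r, hr, rfl⟩

/-- end points are adjacent: `Q(s - r) = 0` -/
theorem Ez_Qf {P : Finset (E n)} {B : E n ≃ₗᵢ[ℝ] E n} {C : ℕ} {e : ZZ n × ZZ n}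
    (h : e ∈ Ez P B C) : Qf (e.1 - e.2) = 0 := by
  obtain ⟨a, ha, rfl⟩ := mem_Ez.1 h
  exact (Qf_zt_sub_eq_zero B _ _).2 (mem_edges.1 (edges₀_subset P C ha)).2.2

/-- `ζ₀(s) ≠ ζ₀(r)` -/
theorem Ez_ne {P : Finset (E n)} {B : E n ≃ₗᵢ[ℝ] E n} (hB : Gm P B) (hn : 1 ≤ n) {C : ℕ}
    {e : ZZ n × ZZ n} (h : e ∈ Ez P B C) : e.1.1 0 ≠ e.2.1 0 := by
  obtain ⟨a, ha, rfl⟩ := mem_Ez.1 h
  have h1 := (mem_edges.1 (edges₀_subset P C ha)).1
  exact H588.zeta_zero_ne_of_adj hB.gi hn (KK_kP h1.1.1 h1.1.2) (KK_kP h1.2.1 h1.2.2)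
    (mem_edges_snd_ne (edges₀_subset P C ha))

/-- at most `C` edges at `s` per point of the leaf -/
theorem card_Ez_leaf_le {P : Finset (E n)} {B : E n ≃ₗᵢ[ℝ] E n} (hB : Gm P B) (hn : 2 ≤ n) {C : ℕ}
    (s : ZZ n) (R : Finset (ZZ n)) (hR : ∀ r ∈ R, (s, r) ∈ Ez P B C)
    (U : Finset (Fin n → ℝ)) (hU : ∀ r ∈ R, mu s r ∈ U) : R.card ≤ C * U.card := by
  classical
  rcases R.eq_empty_or_nonempty with rfl | ⟨r₀, hr₀⟩
  · simp
  obtain ⟨s₀, -, r₁, -, h0, -⟩ := Ez_pairs (hR r₀ hr₀)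
  obtain rfl : s = zt B s₀ := congrArg Prod.fst h0
  set R' : Finset (E n × E n) := (P ×ˢ P).filter fun r => zt B r ∈ R with hR'
  have h1 : R ⊆ R'.image (zt B) := by
    intro r hr
    obtain ⟨s₁, -, r₁, hr₁, h2, -⟩ := Ez_pairs (hR r hr)
    have h3 : r = zt B r₁ := congrArg Prod.snd h2
    exact Finset.mem_image.2 ⟨r₁, Finset.mem_filter.2 ⟨hr₁, h3 ▸ hr⟩, h3.symm⟩
  have hmem : ∀ r ∈ R', (s₀, r) ∈ edges₀ P C := by
    intro r hr
    exact mem_Ez'.1 (hR _ (Finset.mem_filter.1 hr).2)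
  have hk : ∀ r, (s₀, r) ∈ edges₀ P C → KK (kP P) s₀ ∧ KK (kP P) r ∧ s₀.2 ≠ r.2 := by
    intro r hr
    have h2 := (mem_edges.1 (edges₀_subset P C hr)).1
    exact ⟨KK_kP h2.1.1 h2.1.2, KK_kP h2.2.1 h2.2.2, mem_edges_snd_ne (edges₀_subset P C hr)⟩
  have h0' : ∀ r, (s₀, r) ∈ edges₀ P C → (zt B s₀).1 0 ≠ (zt B r).1 0 := by
    intro r hr
    obtain ⟨a, b, c⟩ := hk r hr
    exact H588.zeta_zero_ne_of_adj hB.gi (by omega) a b c
  refine ((Finset.card_le_card h1).trans Finset.card_image_le).trans ?_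
  refine H269.card_leaf_le P C B s₀ h0' ?_ R' hmem U ?_
  · intro r r' hr hr' hmu
    obtain ⟨a, b, -⟩ := hk r hr
    obtain ⟨-, b', -⟩ := hk r' hr'
    exact H588.onLine_of_mu_eq' hB.gi hn a b b' (h0' r hr) (h0' r' hr') hmu
  · intro r hr
    exact hU _ (Finset.mem_filter.1 hr).2

/-! ## separation of the pairs of points -/

/-- **(FD)** the points of `Sz` are separated in degree `4 t` -/
theorem sep_Sz (P : Finset (E n)) (B : E n ≃ₗᵢ[ℝ] E n) {t : ℕ} (ht : (dists P).card ≤ t) :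
    H455.Sep (pt : ZZ n → ZI n → ℝ) (4 * t) (Sz P B) := by
  intro z hz
  obtain ⟨s, hs, rfl⟩ := mem_Sz.1 hz
  obtain ⟨f, h1, h2, h3⟩ := exists_sep P B s hs
  refine ⟨f, h1.trans (Nat.mul_le_mul_left _ ht), h2, ?_⟩
  intro z' hz' hne
  obtain ⟨s', hs', rfl⟩ := mem_Sz.1 hz'
  exact h3 s' hs' fun h => hne (by rw [h])

/-- all points of `Sz` impose independent conditions in degree `4 t` -/
theorem rkY_Sz (P : Finset (E n)) (B : E n ≃ₗᵢ[ℝ] E n) {t : ℕ} (ht : (dists P).card ≤ t)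
    [DecidableEq (ZI n → ℝ)] (Y : Finset (ZZ n)) (hY : Y ⊆ Sz P B) :
    rkY (Y.image pt) (4 * t) = Y.card := by
  have h1 := ((sep_Sz P B ht).subset hY).rk_eq
  rw [← rk_evd_eq_rkY (pt : ZZ n → ZI n → ℝ) Y]
  exact h1

/-! ## number of edges -/

/-- `|P|⁴ ≤ 4 t |E₀|` -/
theorem card_Ez_ge (P : Finset (E n)) (B : E n ≃ₗᵢ[ℝ] E n) {t β : ℕ} (ht : (dists P).card ≤ t)
    (hlog : 2 ^ 18 * (12 * Real.log ((P.card : ℝ) + 1) + 1) ^ 2 ≤ (β : ℝ))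
    (hP : 256 * (β + 2 * t + 1) ≤ P.card) : P.card ^ 4 ≤ 4 * (t * (Ez P B β).card) := by
  have htr : ((dists P).card : ℝ) ≤ t := by exact_mod_cast ht
  have hPr : 256 * ((β : ℝ) + 2 * t + 1) ≤ P.card := by exact_mod_cast hP
  have h1 := card_edges₀ P β hlog (by linarith)
  have h2 : (P.card : ℝ) ^ 4 ≤ 4 * ((t : ℝ) * (Ez P B β).card) := by
    rw [card_Ez]
    refine h1.trans ?_
    gcongr
  exact_mod_cast h2

end Vale.Agent.P054.T2.H686
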