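import Vale.Agent.P054.T2.H686.Setup
import Vale.Agent.P054.T2.H686.Frame
import Vale.Agent.P054.T2.H84.SecCIneq
import Vale.Agent.P054.T2.H269.SideCount

set_option autoImplicit false
set_option linter.all false

/-!
# P054 / T2, assembly (2): `MainIneq` from the output of sections A and B
-/

namespace Vale.Agent.P054.T2.H686

open Finset MvPolynomial Module
open Vale.Agent.P054.T2.SecC

variable {n : ℕ}

theorem Sz_eq_Sg (P : Finset (E n)) (B : E n ≃ₗᵢ[ℝ] E n) : Sz P B = H84.Sg P B := by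
  ext z
  rw [mem_Sz, H84.mem_Sg]

/-- degenerate output (one of the leaf dimensions is `0`): the number of points on the leaves of
the first (second) end points is at most `b ^ a₁ * W ^ n`. -/
def ABDeg (n : ℕ) (P : Finset (E n)) (B : E n ≃ₗᵢ[ℝ] E n) (β b a₀ a₁ Wmax : ℕ) : Prop :=
  ∃ (A : Finset (ZZ n × ZZ n)) (W : ℕ), A ⊆ Ez P B β ∧ (Ez P B β).card ≤ b ^ a₀ * A.card ∧
    W ≤ Wmax ∧
    ((∀ s, ∃ U : Finset (Fin n → ℝ), U.card ≤ b ^ a₁ * W ^ n ∧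
        ∀ e ∈ A, e.1 = s → mu e.1 e.2 ∈ U) ∨
      (∀ r, ∃ U : Finset (Fin n → ℝ), U.card ≤ b ^ a₁ * W ^ n ∧
        ∀ e ∈ A, e.2 = r → mu e.1 e.2 ∈ U))

/-- main output of sections A and B: good edges `A` with the two sides, the pair primes `Q`, and the
case distinction for every good edge. -/
def ABMain (n : ℕ) (P : Finset (E n)) (B : E n ≃ₗᵢ[ℝ] E n) (β b a₀ a₁ a₃ Cst t Wmax : ℕ)
    (G : ℕ → ℕ) : Prop :=
  ∃ (A : Finset (ZZ n × ZZ n)) (W D σ₁ σ₂ v₁ v₂ : ℕ) (S₁ : Side n A W D σ₁ v₂)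
    (S₂ : Side n (swp A) W D σ₂ v₁) (κ : Type) (Q : ZZ n × ZZ n → κ),
    A ⊆ Ez P B β ∧ (Ez P B β).card ≤ b ^ a₀ * A.card ∧ W ≤ Wmax ∧ D ≤ b ^ a₁ ∧
    (∀ e ∈ A, ∀ e' ∈ A, Q e = Q e' → S₁.Pr e = S₁.Pr e') ∧
    (∀ e ∈ A, ∀ e' ∈ A, Q e = Q e' → S₂.Pr e.swap = S₂.Pr e'.swap) ∧
    (∀ e ∈ A, S₁.Cnt (8 * t) (G σ₁) e ∨ S₂.Cnt (8 * t) (G σ₂) e.swap ∨ SecC.BB S₁ S₂ e) ∧
    (v₁ = 0 → v₂ = 0 → ∃ X : Finset κ, (∀ e ∈ A, Q e ∈ X) ∧
      X.card ≤ Cst * D ^ a₃ * W ^ (2 * n + 1 - (σ₁ + σ₂)))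

/-- **what sections A and B have to deliver.** -/
def MainAB (n : ℕ) : Prop :=
  ∃ a₀ a₁ a₃ Cst : ℕ, ∀ m : ℕ, 1 ≤ m → ∀ K₁ : ℕ, ∃ K L β₀ : ℕ, K₁ ≤ K ∧ 1 ≤ L ∧
    ∀ β : ℕ, β₀ ≤ β → ∀ (t : ℕ) (P : Finset (E n)) (B : E n ≃ₗᵢ[ℝ] E n) (G : ℕ → ℕ), Gm P B →
      1 ≤ t → (dists P).card ≤ t → t ^ (m + 1) ≤ (β ^ L) ^ (m * K) →
      P.card ^ 4 ≤ 4 * (t * (Ez P B β).card) → (Ez P B β).Nonempty → IsoB n P G →
      ABDeg n P B β (β ^ L) a₀ a₁ ((β ^ L) ^ K) ∨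
      ABMain n P B β (β ^ L) a₀ a₁ a₃ Cst t ((β ^ L) ^ K) G

/-- the count of the bad points (431's `card_bad_le` for `Side`) -/
def BadCount (n : ℕ) : Prop :=
  ∀ (A : Finset (ZZ n × ZZ n)) (W D σ : ℕ) (S : Side n A W D σ 0) (P : Finset (E n))
    (B : E n ≃ₗᵢ[ℝ] E n) (t : ℕ), (dists P).card ≤ t → ∀ e ∈ A, ∀ Y ⊆ Sz P B,
      (∀ s ∈ Y, Bad (S.Pr e) (pt s)) → Y.card ≤ 2 * (4 * t + 1) ^ σ

/-- the degenerate case -/
theorem ineq_of_deg {P : Finset (E n)} {B : E n ≃ₗᵢ[ℝ] E n} (hB : Gm P B) (hn : 2 ≤ n)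
    {β b a₀ a₁ t Wmax : ℕ} (hb : 4 ≤ b) (hβb : β ≤ b) (G : ℕ → ℕ)
    (h4 : P.card ^ 4 ≤ 4 * (t * (Ez P B β).card)) (h : ABDeg n P B β b a₀ a₁ Wmax) :
    ∃ σ₁ σ₂ e T : ℕ, σ₁ ≤ n ∧ σ₂ ≤ n ∧ e ≤ 2 * n + 1 ∧ T ≤ Wmax ∧
      P.card ^ 4 ≤ t * b ^ (a₀ + a₁ + 2) *
        (P.card ^ 2 * (T ^ (n - σ₁) * (t ^ σ₁ + G σ₁)) +
          P.card ^ 2 * (T ^ (n - σ₂) * (t ^ σ₂ + G σ₂)) + T ^ (2 * n + 1 - e) * t ^ e) := by
  classical
  obtain ⟨A, W, hA, hA0, hW, hU⟩ := h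
  have key : A.card ≤ P.card ^ 2 * (β * (b ^ a₁ * W ^ n)) := by
    rcases hU with hU | hU
    · calc A.card = ∑ s ∈ Sz P B, (A.filter fun e => e.1 = s).card :=
            card_eq_sum_card_fiberwise fun e he => Ez_fst (hA he)
        _ ≤ ∑ _s ∈ Sz P B, β * (b ^ a₁ * W ^ n) := by
            refine Finset.sum_le_sum fun s _ => ?_
            obtain ⟨U, hU1, hU2⟩ := hU s
            have h1 : (A.filter fun e => e.1 = s).card ≤
                ((A.filter fun e => e.1 = s).image Prod.snd).card := by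
              refine (Finset.card_image_of_injOn ?_).ge
              intro e he e' he' h
              have h2 := (Finset.mem_filter.1 (Finset.mem_coe.1 he)).2
              have h3 := (Finset.mem_filter.1 (Finset.mem_coe.1 he')).2
              exact Prod.ext (h2.trans h3.symm) h
            refine h1.trans ?_
            refine (card_Ez_leaf_le hB hn s _ ?_ U ?_).trans (Nat.mul_le_mul_left _ hU1)
            · intro r hr
              obtain ⟨e, he, rfl⟩ := Finset.mem_image.1 hr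
              obtain ⟨he1, he2⟩ := Finset.mem_filter.1 he
              rw [← he2]
              exact hA he1
            · intro r hr
              obtain ⟨e, he, rfl⟩ := Finset.mem_image.1 hr
              obtain ⟨he1, he2⟩ := Finset.mem_filter.1 he
              have := hU2 e he1 he2
              rwa [he2] at this
        _ = P.card ^ 2 * (β * (b ^ a₁ * W ^ n)) := by
            rw [Finset.sum_const, card_Sz, smul_eq_mul]
    · calc A.card = ∑ s ∈ Sz P B, (A.filter fun e => e.2 = s).card :=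
            card_eq_sum_card_fiberwise fun e he => Ez_snd (hA he)
        _ ≤ ∑ _s ∈ Sz P B, β * (b ^ a₁ * W ^ n) := by
            refine Finset.sum_le_sum fun s _ => ?_
            obtain ⟨U, hU1, hU2⟩ := hU s
            have h1 : (A.filter fun e => e.2 = s).card ≤
                ((A.filter fun e => e.2 = s).image Prod.fst).card := by
              refine (Finset.card_image_of_injOn ?_).ge
              intro e he e' he' h
              have h2 := (Finset.mem_filter.1 (Finset.mem_coe.1 he)).2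
              have h3 := (Finset.mem_filter.1 (Finset.mem_coe.1 he')).2
              exact Prod.ext h (h2.trans h3.symm)
            refine h1.trans ?_
            refine (card_Ez_leaf_le hB hn s _ ?_ U ?_).trans (Nat.mul_le_mul_left _ hU1)
            · intro r hr
              obtain ⟨e, he, rfl⟩ := Finset.mem_image.1 hr
              obtain ⟨he1, he2⟩ := Finset.mem_filter.1 he
              rw [← he2]
              exact Ez_swap (hA he1)
            · intro r hr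
              obtain ⟨e, he, rfl⟩ := Finset.mem_image.1 hr
              obtain ⟨he1, he2⟩ := Finset.mem_filter.1 he
              have := hU2 e he1 he2
              rw [he2, mu_comm] at this
              exact this
        _ = P.card ^ 2 * (β * (b ^ a₁ * W ^ n)) := by
            rw [Finset.sum_const, card_Sz, smul_eq_mul]
  refine ⟨0, 0, 0, W, Nat.zero_le _, Nat.zero_le _, Nat.zero_le _, hW, ?_⟩
  calc P.card ^ 4 ≤ 4 * (t * (Ez P B β).card) := h4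
    _ ≤ b * (t * (b ^ a₀ * (P.card ^ 2 * (b * (b ^ a₁ * W ^ n))))) := by
        refine Nat.mul_le_mul hb (Nat.mul_le_mul_left _ (hA0.trans (Nat.mul_le_mul_left _
          (key.trans (Nat.mul_le_mul_left _ (Nat.mul_le_mul_right _ hβb))))))
    _ = t * b ^ (a₀ + a₁ + 2) * (P.card ^ 2 * (W ^ n * 1)) := by
        rw [pow_add, pow_add]; ring
    _ ≤ _ := by
        refine Nat.mul_le_mul_left _ ?_
        simp only [Nat.sub_zero, pow_zero]
        refine le_trans (Nat.mul_le_mul_left _ (Nat.mul_le_mul_left _ (Nat.le_add_right 1 (G 0)))) ?_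
        rw [add_assoc]
        exact Nat.le_add_right _ _

open Classical in
/-- the main case -/
theorem ineq_of_main {P : Finset (E n)} {B : E n ≃ₗᵢ[ℝ] E n} (hbad : BadCount n)
    {β b a₀ a₁ a₃ Cst t Wmax : ℕ} (ht : 1 ≤ t) (hPt : (dists P).card ≤ t)
    (hCst : Cst ≤ b) (hCs : H269.Cs n ≤ b) (h9 : 9 ^ n ≤ b) (h100 : 4 * 25 ^ n ≤ b) (G : ℕ → ℕ)
    (h4 : P.card ^ 4 ≤ 4 * (t * (Ez P B β).card))
    (h : ABMain n P B β b a₀ a₁ a₃ Cst t Wmax G) :
    ∃ σ₁ σ₂ e T : ℕ, σ₁ ≤ n ∧ σ₂ ≤ n ∧ e ≤ 2 * n + 1 ∧ T ≤ Wmax ∧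
      P.card ^ 4 ≤ t * b ^ (a₀ + a₁ * (2 * (n + 1) + a₃) + 3) *
        (P.card ^ 2 * (T ^ (n - σ₁) * (t ^ σ₁ + G σ₁)) +
          P.card ^ 2 * (T ^ (n - σ₂) * (t ^ σ₂ + G σ₂)) + T ^ (2 * n + 1 - e) * t ^ e) := by
  obtain ⟨A, W, D, σ₁, σ₂, v₁, v₂, S₁, S₂, κ, Q, hA, hA0, hW, hD, hQ2, hQ1, hcase, hX⟩ := h
  refine ⟨σ₁, σ₂, σ₁ + σ₂, W, S₁.hσ, S₂.hσ, by have := S₁.hσ; have := S₂.hσ; omega, hW, ?_⟩
  have hmax : max (H269.Cs n) Cst ≤ b := max_le hCs hCst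
  have hE1 : ∀ e ∈ A, e.1 ∈ H84.Sg P B := fun e he => by
    rw [← Sz_eq_Sg]; exact Ez_fst (hA he)
  have hE2 : ∀ e ∈ A, e.2 ∈ H84.Sg P B := fun e he => by
    rw [← Sz_eq_Sg]; exact Ez_snd (hA he)
  refine H84.secC_ineq S₁ S₂ P B hE1 hE2 Q hQ2 hQ1 (N := 8 * t) (G₁ := G σ₁) (G₂ := G σ₂)
    (a₂ := 2 * (n + 1)) (a₃ := a₃) (Cst := max (H269.Cs n) Cst)
    (E₀ := (Ez P B β).card) hcase ?_ ?_ ?_ ?_ ?_ ht h4 hA0 hD hmax h9 h100 (by omega)
  · intro s
    refine (H269.side_count S₁ s (8 * t) (G σ₁)).trans ?_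
    gcongr
    exact le_max_left _ _
  · intro s
    refine (H269.side_count S₂ s (8 * t) (G σ₂)).trans ?_
    gcongr
    exact le_max_left _ _
  · intro h1 h2
    obtain ⟨X, hX1, hX2⟩ := hX h1 h2
    refine ((Finset.card_le_card ?_).trans hX2).trans ?_
    · intro q hq
      obtain ⟨e, he, rfl⟩ := Finset.mem_image.1 hq
      exact hX1 e he
    · gcongr
      exact le_max_right _ _
  · intro h1 h2 e he Y hY hY2
    subst h2
    exact hbad A W D σ₁ S₁ P B t hPt e he Y (by rw [Sz_eq_Sg]; exact hY) hY2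
  · intro h1 h2 e he Y hY hY2
    subst h1
    exact hbad (swp A) W D σ₂ S₂ P B t hPt e.swap (mem_swp.2 (by simpa using he)) Y
      (by rw [Sz_eq_Sg]; exact hY) hY2

/-- **ASSEMBLY**: the output of sections A and B gives the main inequality -/
theorem mainIneq_of_AB (hn : 2 ≤ n) (hbad : BadCount n) (hAB : MainAB n) : MainIneq n := by
  classical
  obtain ⟨a₀, a₁, a₃, Cst, hAB⟩ := hAB
  refine ⟨a₀ + a₁ + a₁ * (2 * (n + 1) + a₃) + 3, fun m hm K₁ => ?_⟩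
  obtain ⟨K, L, β₀, hK, hL, hAB⟩ := hAB m hm K₁
  refine ⟨K, L, max β₀ (max (max Cst (H269.Cs n)) (max (9 ^ n) (4 * 25 ^ n))), hK, hL, ?_⟩
  intro β hβ t P G ht hPt hreach hlog hmany hiso
  have hβ0 : β₀ ≤ β := (le_max_left _ _).trans hβ
  have hβ1 : max (max Cst (H269.Cs n)) (max (9 ^ n) (4 * 25 ^ n)) ≤ β := (le_max_right _ _).trans hβ
  have hβC : Cst ≤ β := ((le_max_left _ _).trans (le_max_left _ _)).trans hβ1
  have hβs : H269.Cs n ≤ β := ((le_max_right _ _).trans (le_max_left _ _)).trans hβ1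
  have hβ9 : 9 ^ n ≤ β := ((le_max_left _ _).trans (le_max_right _ _)).trans hβ1
  have hβ100 : 4 * 25 ^ n ≤ β := ((le_max_right _ _).trans (le_max_right _ _)).trans hβ1
  have hβpos : 1 ≤ β := (Nat.one_le_pow n 9 (by norm_num)).trans hβ9
  have hβb : β ≤ β ^ L := Nat.le_self_pow (by omega) β
  have hb4 : 4 ≤ β ^ L := by
    have h1 : 4 * 1 ≤ 4 * 25 ^ n := Nat.mul_le_mul_left _ (Nat.one_le_pow _ _ (by norm_num))
    omega
  obtain ⟨B, hB⟩ := exists_Gm P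
  have h4 := card_Ez_ge P B hPt hlog hmany
  have hP0 : 0 < P.card := by omega
  have hne : (Ez P B β).Nonempty := by
    rw [← Finset.card_pos]
    by_contra h0
    have h1 : (Ez P B β).card = 0 := by omega
    rw [h1] at h4
    have h2 : 0 < P.card ^ 4 := pow_pos hP0 4
    omega
  have hb1 : 1 ≤ β ^ L := by omega
  rcases hAB β hβ0 t P B G hB ht hPt hreach h4 hne hiso with h | h
  · obtain ⟨σ₁, σ₂, e, T, h1, h2, h3, hT, hfin⟩ := ineq_of_deg hB hn hb4 hβb G h4 h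
    refine ⟨σ₁, σ₂, e, T, h1, h2, h3, hT, hfin.trans ?_⟩
    refine Nat.mul_le_mul_right _ (Nat.mul_le_mul_left _ (Nat.pow_le_pow_right hb1 ?_))
    omega
  · obtain ⟨σ₁, σ₂, e, T, h1, h2, h3, hT, hfin⟩ := ineq_of_main hbad ht hPt (hβC.trans hβb)
      (hβs.trans hβb) (hβ9.trans hβb) (hβ100.trans hβb) G h4 h
    refine ⟨σ₁, σ₂, e, T, h1, h2, h3, hT, hfin.trans ?_⟩
    refine Nat.mul_le_mul_right _ (Nat.mul_le_mul_left _ (Nat.pow_le_pow_right hb1 ?_))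
    omega

end Vale.Agent.P054.T2.H686
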