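import Vale.Agent.P054.T2.H686.EW1
import Vale.Agent.P054.T2.H307.Fam
import Vale.Agent.P054.T2.H455.Sep

set_option autoImplicit false
set_option linter.all false

/-!
# P054 / T2: leaves of dimension `0` (the degenerate case)

If `N = #σ` polynomials of degrees `≤ d` vanish on the points `x e` and have independent gradients
there, the number of points is at most `(N + 1) ^ N * d ^ N`.
-/

namespace Vale.Agent.P054.T2.H686

open Finset MvPolynomial Module
open Vale.Agent.P054.T2.H307 (van mem_van IsUnif cA JA FI isFam_L1 isFam_L2 fib mem_fib xL Ed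
  IsFamL grL)
open Vale.Agent.P054.T2.H580 (rk evd hilb)
open Vale.Agent.P054.T2.H441 (rkY)

variable {ι σ K : Type*} [Field K]

/-- finitely many points are separated by polynomials of degree at most their number -/
theorem sep_finset (Y : Finset (σ → K)) : H455.Sep (fun y : σ → K => y) Y.card Y := by
  classical
  intro y hy
  have hne : ∀ y' : σ → K, y' ≠ y → ∃ i, y' i ≠ y i := fun y' h => by
    by_contra hcon
    push Not at hcon
    exact h (funext hcon)
  rcases isEmpty_or_nonempty σ with hσ | hσ
  · exact ⟨1, by simp, by simp, fun y' _ h => absurd (Subsingleton.elim y' y) h⟩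
  choose! i hi using hne
  refine ⟨∏ y' ∈ Y.erase y, (X (i y') - C (y' (i y'))), ?_, ?_, ?_⟩
  · refine (totalDegree_finset_prod _ _).trans ?_
    calc ∑ y' ∈ Y.erase y, (X (i y') - C (y' (i y')) : MvPolynomial σ K).totalDegree
        ≤ ∑ _y' ∈ Y.erase y, 1 := by
          refine Finset.sum_le_sum fun y' _ => ?_
          refine (totalDegree_sub _ _).trans (max_le ?_ ?_)
          · exact (totalDegree_X _).le
          · rw [totalDegree_C]; exact Nat.zero_le _
      _ ≤ Y.card := by
          rw [Finset.sum_const, smul_eq_mul, mul_one]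
          exact Finset.card_le_card (Finset.erase_subset _ _)
  · rw [map_prod, Finset.prod_ne_zero_iff]
    intro y' hy'
    have h1 := hi y' (Finset.ne_of_mem_erase hy')
    rw [map_sub, eval_X, eval_C]
    exact sub_ne_zero.2 (Ne.symm h1)
  · intro y' hy' hne
    rw [map_prod]
    refine Finset.prod_eq_zero (Finset.mem_erase.2 ⟨hne, hy'⟩) ?_
    rw [map_sub, eval_X, eval_C, sub_self]

theorem rkY_of_card_le [Finite σ] [DecidableEq (σ → K)] (Y : Finset (σ → K)) {n : ℕ}
    (hn : Y.card ≤ n) : rkY Y n = Y.card := by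
  have h1 := ((sep_finset Y).mono_deg hn).rk_eq
  have h2 := rk_evd_eq_rkY (fun y : σ → K => y) Y n
  rw [Finset.image_id'] at h2
  rw [← h2]
  exact h1

/-- **isolated points**: at most `(N + 1) ^ N * ∏ deg` -/
theorem card_le_of_full [Fintype σ] [DecidableEq σ] [DecidableEq (σ → K)] (x : ι → σ → K)
    (A : Finset ι) (f : Fin (Fintype.card σ) → MvPolynomial σ K) (d : ℕ) (hd1 : 1 ≤ d)
    (hd : ∀ j, (f j).totalDegree ≤ d) (hev : ∀ e ∈ A, ∀ j, eval (x e) (f j) = 0)
    (hind : ∀ e ∈ A, LinearIndependent K (fun j => H930.grad (x e) (f j))) :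
    (A.image x).card ≤ (Fintype.card σ + 1) ^ Fintype.card σ * d ^ Fintype.card σ := by
  classical
  have h1 := hilb_germ_le x A f (fun _ => d) (fun _ => hd1) hd hev hind le_rfl (A.image x).card
  rw [Nat.sub_self, pow_zero, mul_one, Finset.prod_const, Finset.card_range] at h1
  have h2 : rk K (fun i => evd (A.image x).card (x i)) A ≤
      hilb (⨅ e ∈ A, H930.germ (x e) f) (A.image x).card := by
    refine H580.rk_evd_le_hilb _ x A ?_ _
    intro e he F hF
    simp only [Submodule.mem_iInf] at hF
    exact H930.eval_eq_zero_of_mem_germ (hev e he) (hF e he)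
  rw [rk_evd_eq_rkY x A, rkY_of_card_le _ le_rfl] at h2
  refine (h2.trans h1).trans (le_of_eq ?_)
  rw [mul_comm]

/-- the leaf families: if the value at the level `k₀` is `n`, every leaf has at most
`(n + 1) ^ n * (b ^ k₀) ^ n` points. -/
theorem card_leaf_of_full [Infinite K] {n : ℕ} {β b K' : ℕ} (hβ : 1 < β) (hb : 1 ≤ b)
    {E' : Finset (Ed n K)} (hE : E'.Nonempty) {J : Finset (FI × ℕ)} {v : FI × ℕ → ℕ}
    (hU : IsUnif (cA n K b) J β E' v) {S : Type*} (p : Ed n K → S) (F : FI)
    (hF : IsFamL (cA n K b) J (fun i => (F, i)) K' xL p (restrictTotalDegree (Fin n) K)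
      (LinearMap.id : (Fin n → K) →ₗ[K] (Fin n → K)) 1 b)
    {k₀ : ℕ} (hk₀ : k₀ ≤ K') (hfull : v (F, k₀) = n) [DecidableEq (Fin n → K)] (s : S) :
    ((fib p E' s).image xL).card ≤ (n + 1) ^ n * (b ^ k₀) ^ n := by
  classical
  have hV : Monotone (restrictTotalDegree (Fin n) K) := by
    intro i j hij g hg
    rw [mem_restrictTotalDegree] at hg ⊢
    exact hg.trans hij
  have hF' : IsFamL (cA n K b) J (fun i => (F, i)) k₀ xL p (restrictTotalDegree (Fin n) K)
      (LinearMap.id : (Fin n → K) →ₗ[K] (Fin n → K)) 1 b := fun j hj => hF j (hj.trans hk₀)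
  obtain ⟨f, -, h2, h3⟩ := hU.sys hE hβ hV hb hF' s
  have hcard : Fintype.card (Fin n) = n := Fintype.card_fin n
  have h4 := card_le_of_full (K := K) (σ := Fin n) xL (fib p E' s)
    (fun j => f (j : ℕ)) (b ^ k₀) (Nat.one_le_pow _ _ hb)
    (fun j => by
      have h5 := h2 k₀ le_rfl (j : ℕ) (by
        have := j.2
        simp only [hcard] at this
        simp only [hfull]
        exact this)
      have h6 := (mem_restrictTotalDegree _ _ _).1 (mem_van.1 h5).1
      rwa [one_mul] at h6)
    (fun e he j => by
      have h5 := h2 k₀ le_rfl (j : ℕ) (by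
        have := j.2
        simp only [hcard] at this
        simp only [hfull]
        exact this)
      exact (mem_van.1 h5).2 e he)
    (fun e he => by
      have h5 := h3 e he
      have h6 : Fintype.card (Fin n) = v (F, k₀) := by rw [hcard, hfull]
      exact (linearIndependent_equiv (finCongr h6)).2 h5)
  simpa only [hcard] using h4

end Vale.Agent.P054.T2.H686
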