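import Vale.Agent.P054.T2.H686.EW1
import Vale.Agent.P054.T2.H686.Leaf

set_option autoImplicit false
set_option linter.all false

/-!
# P054 / T2, section A: slope inequality at an edge, contagion on the real edges
-/

namespace Vale.Agent.P054.T2.H686

open Finset MvPolynomial Module
open Vale.Agent.P054.T2.H307 (van gr gsp mem_van van_mono grad_mem_gsp)
open Vale.Agent.P054.T2.H580 (rk evd contagion)
open Vale.Agent.P054.T2.H441 (rkY resA)

variable {K : Type*} [Field K]

/-! ## perpendicular spaces -/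

/-- the space of vectors orthogonal to `G` -/
def perp {σ : Type*} [Fintype σ] (G : Submodule K (σ → K)) : Submodule K (σ → K) where
  carrier := {w | ∀ η ∈ G, ∑ i, w i * η i = 0}
  add_mem' := by
    intro a b ha hb η hη
    simp only [Pi.add_apply, add_mul, Finset.sum_add_distrib, ha η hη, hb η hη, add_zero]
  zero_mem' := by intro η _; simp
  smul_mem' := by
    intro c a ha η hη
    simp only [Pi.smul_apply, smul_eq_mul, mul_assoc, ← Finset.mul_sum, ha η hη, mul_zero]

theorem mem_perp {σ : Type*} [Fintype σ] {G : Submodule K (σ → K)} {w : σ → K} :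
    w ∈ perp G ↔ ∀ η ∈ G, ∑ i, w i * η i = 0 := Iff.rfl

/-- `η ↦ (w ↦ ∑ w_i η_i)` -/
def dotD (σ : Type*) [Fintype σ] : (σ → K) →ₗ[K] Module.Dual K (σ → K) where
  toFun η :=
    { toFun := fun w => ∑ i, w i * η i
      map_add' := by
        intro a b
        simp only [Pi.add_apply, add_mul, Finset.sum_add_distrib]
      map_smul' := by
        intro c a
        simp only [Pi.smul_apply, smul_eq_mul, mul_assoc, ← Finset.mul_sum, RingHom.id_apply] }
  map_add' := by
    intro a b
    ext w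
    simp [mul_add, Finset.sum_add_distrib]
  map_smul' := by
    intro c a
    ext w
    simp [mul_left_comm, Finset.mul_sum]

theorem dotD_apply {σ : Type*} [Fintype σ] (η w : σ → K) : dotD σ η w = ∑ i, w i * η i := rfl

theorem dotD_injective {σ : Type*} [Fintype σ] : Function.Injective (dotD (K := K) σ) := by
  classical
  rw [injective_iff_map_eq_zero]
  intro η hη
  funext i
  have h1 := congrArg (fun φ : Module.Dual K (σ → K) => φ (Pi.single i 1)) hη
  simp only [dotD_apply, LinearMap.zero_apply] at h1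
  simpa [Pi.single_apply] using h1

theorem finrank_perp {σ : Type*} [Fintype σ] (G : Submodule K (σ → K)) :
    finrank K G + finrank K (perp G) = Fintype.card σ := by
  have h1 := Subspace.finrank_add_finrank_dualCoannihilator_eq (G.map (dotD σ))
  have h2 : (G.map (dotD σ)).dualCoannihilator = perp G := by
    ext w
    rw [Submodule.mem_dualCoannihilator, mem_perp]
    constructor
    · intro h η hη
      exact h _ (Submodule.mem_map_of_mem hη)
    · rintro h _ ⟨η, hη, rfl⟩
      exact h η hη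
  have h3 : finrank K (G.map (dotD σ)) = finrank K G :=
    (LinearEquiv.finrank_eq (Submodule.equivMapOfInjective _ dotD_injective G)).symm
  rw [h2, h3, Module.finrank_fintype_fun_eq_card] at h1
  exact h1

/-! ## (c) slope inequality -/

/-- pull-back of a covector to the leaf -/
def pullCov {n : ℕ} (s : (Fin (n + 1) → K) × (Fin (n + 1) → K)) (ξ : Crd n → K) : Fin n → K :=
  fun i => ∑ x, leafDir s (Pi.single i 1) x * ξ x

theorem sum_pullCov {n : ℕ} (s : (Fin (n + 1) → K) × (Fin (n + 1) → K)) (ξ : Crd n → K)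
    (w : Fin n → K) : ∑ i, w i * pullCov s ξ i = ∑ x, leafDir s w x * ξ x := by
  classical
  have hw : w = ∑ i, w i • (Pi.single i 1 : Fin n → K) := by
    funext j
    simp [Finset.sum_apply, Pi.single_apply]
  conv_rhs => rw [hw]
  simp only [pullCov, map_sum, map_smul, Finset.sum_apply, Pi.smul_apply, smul_eq_mul,
    Finset.sum_mul, Finset.mul_sum]
  rw [Finset.sum_comm]
  refine Finset.sum_congr rfl fun x _ => Finset.sum_congr rfl fun i _ => ?_
  ring

/-- gradients pull back to gradients -/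
theorem pullCov_grad {n : ℕ} (s : (Fin (n + 1) → K) × (Fin (n + 1) → K)) (u : Fin n → K)
    (f : MvPolynomial (Crd n) K) :
    pullCov s (Vale.Agent.P054.T2.H307.grad (leaf s u) f) =
      Vale.Agent.P054.T2.H307.grad u (pull s f) := by
  classical
  funext i
  have h := sum_pderiv_pull s u (Pi.single i 1) f
  simp only [pullCov, Vale.Agent.P054.T2.H307.grad_apply]
  rw [← h]
  simp [Pi.single_apply]

theorem card_Crd (n : ℕ) : Fintype.card (Crd n) = 2 * n + 1 := by
  simp [Crd]; ring

/-- **slope inequality** in linear algebra form -/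
theorem slope_lin {n : ℕ} {s r : (Fin (n + 1) → K) × (Fin (n + 1) → K)} (h0 : s.1 0 ≠ r.1 0)
    (G : Submodule K (Crd n → K)) (G1 G2 : Submodule K (Fin n → K))
    (h1 : ∀ ξ ∈ G, pullCov s ξ ∈ G1) (h2 : ∀ ξ ∈ G, pullCov r ξ ∈ G2) :
    (n - finrank K G1) + (n - finrank K G2) ≤ (2 * n + 1) - finrank K G := by
  have e := finrank_perp G
  have e1 := finrank_perp G1
  have e2 := finrank_perp G2
  rw [card_Crd] at e
  rw [Fintype.card_fin] at e1 e2
  have i1 : (perp G1).map (leafDir s) ≤ perp G := by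
    rintro _ ⟨w, hw, rfl⟩ ξ hξ
    rw [← sum_pullCov]
    exact hw _ (h1 ξ hξ)
  have i2 : (perp G2).map (leafDir r) ≤ perp G := by
    rintro _ ⟨w, hw, rfl⟩ ξ hξ
    rw [← sum_pullCov]
    exact hw _ (h2 ξ hξ)
  have d : Disjoint ((perp G1).map (leafDir s)) ((perp G2).map (leafDir r)) :=
    (disjoint_range_leafDir h0).mono (LinearMap.map_le_range) (LinearMap.map_le_range)
  have f1 : finrank K ((perp G1).map (leafDir s)) = finrank K (perp G1) :=
    (LinearEquiv.finrank_eq (Submodule.equivMapOfInjective _ (leafDir_injective s) _)).symm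
  have f2 : finrank K ((perp G2).map (leafDir r)) = finrank K (perp G2) :=
    (LinearEquiv.finrank_eq (Submodule.equivMapOfInjective _ (leafDir_injective r) _)).symm
  have f3 := Submodule.finrank_sup_add_finrank_inf_eq ((perp G1).map (leafDir s))
    ((perp G2).map (leafDir r))
  rw [disjoint_iff.1 d, finrank_bot] at f3
  have f4 := Submodule.finrank_mono (sup_le i1 i2)
  omega

/-! ## the real edges -/

section edges

variable {n : ℕ} {S : Type*} (z : S → (Fin (n + 1) → K) × (Fin (n + 1) → K))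

/-- the point of `F` of an edge -/
def gpt (e : S × S) : Crd n → K := meet (z e.1) (z e.2)

/-- the `u`-coordinate of an edge (in both leaves) -/
def upt (e : S × S) : Fin n → K := mu (z e.1) (z e.2)

theorem gpt_eq_fst (e : S × S) : gpt z e = leaf (z e.1) (upt z e) := rfl

theorem gpt_eq_snd {e : S × S} (h0 : (z e.1).1 0 ≠ (z e.2).1 0) (hq : Qf (z e.1 - z e.2) = 0) :
    gpt z e = leaf (z e.2) (upt z e) := by
  unfold gpt upt
  rw [meet_comm h0 hq, mu_comm]
  rfl

theorem pull_mem_van {s : S} {A B : Finset (S × S)} {T : ℕ}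
    (hB : ∀ e ∈ B, gpt z e = leaf (z s) (upt z e)) (hBA : B ⊆ A) {f : MvPolynomial (Crd n) K}
    (hf : f ∈ van (gpt z) A (restrictTotalDegree (Crd n) K T)) :
    pull (z s) f ∈ van (upt z) B (restrictTotalDegree (Fin n) K T) := by
  refine ⟨(mem_restrictTotalDegree _ _ _).2
    ((totalDegree_pull_le _ _).trans ((mem_restrictTotalDegree _ _ _).1 hf.1)), fun e he => ?_⟩
  rw [eval_pull, ← hB e he]
  exact hf.2 e (hBA he)

variable [DecidableEq S]

/-- **(c) slope inequality** at an edge `e ∈ A` -/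
theorem slope_edge (A : Finset (S × S)) (h0 : ∀ e ∈ A, (z e.1).1 0 ≠ (z e.2).1 0)
    (hq : ∀ e ∈ A, Qf (z e.1 - z e.2) = 0) (T : ℕ) {e : S × S} (he : e ∈ A) :
    (n - gr (upt z) (A.filter fun x => x.1 = e.1) (restrictTotalDegree (Fin n) K T) (upt z e)) +
      (n - gr (upt z) (A.filter fun x => x.2 = e.2) (restrictTotalDegree (Fin n) K T) (upt z e)) ≤
      (2 * n + 1) - gr (gpt z) A (restrictTotalDegree (Crd n) K T) (gpt z e) := by
  refine slope_lin (h0 e he) _ _ _ ?_ ?_
  · rintro _ ⟨f, hf, rfl⟩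
    rw [gpt_eq_fst, pullCov_grad]
    refine grad_mem_gsp (pull_mem_van z (s := e.1) ?_ (Finset.filter_subset _ _) hf) _
    intro x hx
    rw [gpt_eq_fst, (Finset.mem_filter.1 hx).2]
  · rintro _ ⟨f, hf, rfl⟩
    rw [gpt_eq_snd z (h0 e he) (hq e he), pullCov_grad]
    refine grad_mem_gsp (pull_mem_van z (s := e.2) ?_ (Finset.filter_subset _ _) hf) _
    intro x hx
    obtain ⟨hxA, hx2⟩ := Finset.mem_filter.1 hx
    rw [gpt_eq_snd z (h0 x hxA) (hq x hxA), hx2]

/-! ## (d) contagion -/

theorem rk_map_le {ι V W : Type*} [AddCommGroup V] [Module K V] [AddCommGroup W] [Module K W]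
    [FiniteDimensional K V] (φ : V →ₗ[K] W) (v : ι → V) (A : Finset ι) :
    rk K (fun i => φ (v i)) A ≤ rk K v A := by
  unfold rk
  have h : (fun i => φ (v i)) '' (A : Set ι) = φ '' (v '' (A : Set ι)) := by
    rw [Set.image_image]
  rw [h, ← Submodule.map_span]
  exact Submodule.finrank_map_le _ _

/-- ranks on a leaf: the ambient polynomials restrict to polynomials of the leaf -/
theorem rk_leaf_le (s : (Fin (n + 1) → K) × (Fin (n + 1) → K)) {ι : Type*} (x : ι → Crd n → K)
    (u : ι → Fin n → K) (A : Finset ι) (h : ∀ i ∈ A, x i = leaf s (u i)) (T : ℕ) :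
    rk K (fun i => evd T (x i)) A ≤ rk K (fun i => evd T (u i)) A := by
  set ρ : restrictTotalDegree (Crd n) K T →ₗ[K] restrictTotalDegree (Fin n) K T :=
    ((pull s).toLinearMap.comp (restrictTotalDegree (Crd n) K T).subtype).codRestrict _ (by
      intro F
      rw [mem_restrictTotalDegree]
      exact (totalDegree_pull_le s _).trans ((mem_restrictTotalDegree _ _ _).1 F.2)) with hρ
  have h1 : rk K (fun i => evd T (x i)) A = rk K (fun i => ρ.dualMap (evd T (u i))) A := by
    have h1' : (fun i => evd T (x i)) '' (A : Set ι) =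
        (fun i => ρ.dualMap (evd T (u i))) '' (A : Set ι) := by
      apply Set.image_congr
      intro i hi
      ext F
      have h2 : evd T (x i) F = eval (x i) (F : MvPolynomial (Crd n) K) := by
        simp [Vale.Agent.P054.T2.H580.evd, aeval_eq_eval]
      have h3 : ρ.dualMap (evd T (u i)) F = eval (u i) (pull s (F : MvPolynomial (Crd n) K)) := by
        simp [Vale.Agent.P054.T2.H580.evd, aeval_eq_eval, hρ]
      rw [h2, h3, eval_pull, h i (Finset.mem_coe.1 hi)]
    unfold rk
    rw [h1']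
  rw [h1]
  exact rk_map_le _ _ _

/-- contagion without finiteness of the type of the second end points -/
theorem contagion_set {V S R : Type*} [AddCommGroup V] [Module K V] [DecidableEq S]
    [DecidableEq R] (Sg : Finset R) (v : S × R → V) (E : Finset (S × R))
    (hE : ∀ e ∈ E, e.2 ∈ Sg) (A B : ℕ)
    (hA : ∑ s ∈ E.image Prod.fst, rk K v (E.filter fun e => e.1 = s) ≤ A)
    (hB : ∑ r ∈ E.image Prod.snd, rk K v (E.filter fun e => e.2 = r) ≤ B) :
    ∃ E' ⊆ E, E.card ≤ 2 * E'.card ∧ E.card * rk K v E' ≤ 8 * (A * B) := by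
  classical
  set φ : S × ↥Sg ↪ S × R := ⟨fun x => (x.1, (x.2 : R)), by
    rintro ⟨a, b⟩ ⟨c, d⟩ h
    simp only [Prod.mk.injEq] at h
    exact Prod.ext h.1 (Subtype.ext h.2)⟩ with hφ
  have hrk : ∀ F : Finset (S × ↥Sg), rk K (fun x => v (φ x)) F = rk K v (F.map φ) := by
    intro F
    unfold rk
    rw [Finset.coe_map, Set.image_image]
  set E₁ : Finset (S × ↥Sg) := E.preimage φ φ.injective.injOn with hE₁
  have hmap : E₁.map φ = E := by
    ext e
    simp only [Finset.mem_map, hE₁, Finset.mem_preimage]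
    constructor
    · rintro ⟨x, hx, rfl⟩
      exact hx
    · intro he
      exact ⟨(e.1, ⟨e.2, hE e he⟩), he, rfl⟩
  have hmem : ∀ x, x ∈ E₁ ↔ φ x ∈ E := fun x => by rw [hE₁, Finset.mem_preimage]
  have h1 : E₁.image Prod.fst = E.image Prod.fst := by
    ext s
    simp only [Finset.mem_image]
    constructor
    · rintro ⟨x, hx, rfl⟩
      exact ⟨φ x, (hmem x).1 hx, rfl⟩
    · rintro ⟨e, he, rfl⟩
      exact ⟨(e.1, ⟨e.2, hE e he⟩), (hmem _).2 he, rfl⟩
  have h2 : (E₁.image Prod.snd).map ⟨Subtype.val, Subtype.val_injective⟩ = E.image Prod.snd := by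
    ext r
    simp only [Finset.mem_map, Finset.mem_image, Function.Embedding.coeFn_mk]
    constructor
    · rintro ⟨y, ⟨x, hx, rfl⟩, rfl⟩
      exact ⟨φ x, (hmem x).1 hx, rfl⟩
    · rintro ⟨e, he, rfl⟩
      exact ⟨⟨e.2, hE e he⟩, ⟨(e.1, ⟨e.2, hE e he⟩), (hmem _).2 he, rfl⟩, rfl⟩
  obtain ⟨F, hF, hc, hr⟩ := contagion (K := K) (fun x => v (φ x)) E₁ A B
    (by
      rw [h1]
      refine le_trans (le_of_eq (Finset.sum_congr rfl fun s _ => ?_)) hA
      rw [hrk]
      congr 1
      ext e
      simp only [Finset.mem_map, Finset.mem_filter]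
      constructor
      · rintro ⟨x, ⟨hx, rfl⟩, rfl⟩
        exact ⟨(hmem x).1 hx, rfl⟩
      · rintro ⟨he, rfl⟩
        exact ⟨(e.1, ⟨e.2, hE e he⟩), ⟨(hmem _).2 he, rfl⟩, rfl⟩)
    (by
      rw [← h2, Finset.sum_map] at hB
      refine le_trans (le_of_eq (Finset.sum_congr rfl fun r _ => ?_)) hB
      rw [hrk]
      congr 1
      ext e
      simp only [Finset.mem_map, Finset.mem_filter, Function.Embedding.coeFn_mk]
      constructor
      · rintro ⟨x, ⟨hx, rfl⟩, rfl⟩
        exact ⟨(hmem x).1 hx, rfl⟩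
      · rintro ⟨he, her⟩
        exact ⟨(e.1, r), ⟨(hmem _).2 (by
          have : φ (e.1, r) = e := Prod.ext rfl her.symm
          rw [this]; exact he), rfl⟩, Prod.ext rfl her.symm⟩)
  refine ⟨F.map φ, ?_, ?_, ?_⟩
  · rw [← hmap]
    exact Finset.map_subset_map.2 hF
  · rw [← hmap, Finset.card_map, Finset.card_map]
    exact hc
  · rw [← hrk]
    have : E.card = E₁.card := by rw [← hmap, Finset.card_map]
    rw [this]
    exact hr

/-- **(d) contagion on the real edges**, all end points in a finite set `Sg` -/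
theorem contagion_edges_set [DecidableEq (Fin n → K)] [DecidableEq (Crd n → K)] (Sg : Finset S)
    (E : Finset (S × S)) (hS1 : ∀ e ∈ E, e.1 ∈ Sg) (hS2 : ∀ e ∈ E, e.2 ∈ Sg)
    (h0 : ∀ e ∈ E, (z e.1).1 0 ≠ (z e.2).1 0)
    (hq : ∀ e ∈ E, Qf (z e.1 - z e.2) = 0) (T w₁ w₂ : ℕ)
    (h1 : ∀ s ∈ Sg, rkY ((E.filter fun e => e.1 = s).image (upt z)) T ≤ w₁)
    (h2 : ∀ r ∈ Sg, rkY ((E.filter fun e => e.2 = r).image (upt z)) T ≤ w₂) :
    ∃ E' ⊆ E, E.card ≤ 2 * E'.card ∧
      E.card * rkY (E'.image (gpt z)) T ≤ 8 * (Sg.card ^ 2 * (w₁ * w₂)) := by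
  have hi1 : E.image Prod.fst ⊆ Sg := by
    intro s hs
    obtain ⟨e, he, rfl⟩ := Finset.mem_image.1 hs
    exact hS1 e he
  have hi2 : E.image Prod.snd ⊆ Sg := by
    intro s hs
    obtain ⟨e, he, rfl⟩ := Finset.mem_image.1 hs
    exact hS2 e he
  obtain ⟨E', hE', hc, hr⟩ := contagion_set (K := K) Sg (fun e => evd T (gpt z e)) E hS2
    (Sg.card * w₁) (Sg.card * w₂)
    (by
      calc ∑ s ∈ E.image Prod.fst, rk K (fun e => evd T (gpt z e)) (E.filter fun e => e.1 = s)
          ≤ ∑ _s ∈ E.image Prod.fst, w₁ := by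
            refine Finset.sum_le_sum fun s hs => ?_
            refine (rk_leaf_le (z s) (gpt z) (upt z) _ ?_ T).trans ?_
            · intro e he
              rw [gpt_eq_fst, (Finset.mem_filter.1 he).2]
            · rw [rk_evd_eq_rkY]
              exact h1 s (hi1 hs)
        _ = (E.image Prod.fst).card * w₁ := by rw [Finset.sum_const, smul_eq_mul]
        _ ≤ _ := Nat.mul_le_mul_right _ (Finset.card_le_card hi1))
    (by
      calc ∑ r ∈ E.image Prod.snd, rk K (fun e => evd T (gpt z e)) (E.filter fun e => e.2 = r)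
          ≤ ∑ _r ∈ E.image Prod.snd, w₂ := by
            refine Finset.sum_le_sum fun r hr => ?_
            refine (rk_leaf_le (z r) (gpt z) (upt z) _ ?_ T).trans ?_
            · intro e he
              obtain ⟨heE, he2⟩ := Finset.mem_filter.1 he
              rw [gpt_eq_snd z (h0 e heE) (hq e heE), he2]
            · rw [rk_evd_eq_rkY]
              exact h2 r (hi2 hr)
        _ = (E.image Prod.snd).card * w₂ := by rw [Finset.sum_const, smul_eq_mul]
        _ ≤ _ := Nat.mul_le_mul_right _ (Finset.card_le_card hi2))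
  refine ⟨E', hE', hc, ?_⟩
  rw [← rk_evd_eq_rkY (gpt z) E']
  refine hr.trans (le_of_eq ?_)
  ring

/-- **(d) contagion on the real edges** -/
theorem contagion_edges [Fintype S] [DecidableEq (Fin n → K)] [DecidableEq (Crd n → K)]
    (E : Finset (S × S)) (h0 : ∀ e ∈ E, (z e.1).1 0 ≠ (z e.2).1 0)
    (hq : ∀ e ∈ E, Qf (z e.1 - z e.2) = 0) (T w₁ w₂ : ℕ)
    (h1 : ∀ s : S, rkY ((E.filter fun e => e.1 = s).image (upt z)) T ≤ w₁)
    (h2 : ∀ r : S, rkY ((E.filter fun e => e.2 = r).image (upt z)) T ≤ w₂) :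
    ∃ E' ⊆ E, E.card ≤ 2 * E'.card ∧
      E.card * rkY (E'.image (gpt z)) T ≤ 8 * (Fintype.card S ^ 2 * (w₁ * w₂)) :=
  contagion_edges_set z Finset.univ E (fun _ _ => Finset.mem_univ _) (fun _ _ => Finset.mem_univ _)
    h0 hq T w₁ w₂ (fun s _ => h1 s) (fun r _ => h2 r)

end edges

end Vale.Agent.P054.T2.H686
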