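import Vale.Agent.P054.T2.H307.Grad
import Vale.Agent.P054.T2.H580.UpperGerm
import Vale.Agent.P054.T2.H580.Cont
import Vale.Agent.P054.T2.H441.Dense2
import Vale.Agent.P054.T2.H930.Jets

set_option autoImplicit false
set_option linter.all false

/-!
# P054 / T2, section A: common systems from lower bounds of gradient ranks, upper bounds (U)
-/

namespace Vale.Agent.P054.T2.H686

open Finset MvPolynomial Module
open Vale.Agent.P054.T2.H307 (van gr gsp mem_van van_mono grad_mem_gsp count_le lt_at_count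
  exists_avoid_subspaces sum_slopes)
open Vale.Agent.P054.T2.H580 (rk evd hilb hilb_primes_le hilb_anti)
open Vale.Agent.P054.T2.H441 (rkY resA)

variable {ι σ K : Type*} [Field K]

/-! ## (b) ranks of evaluation functionals -/

/-- rank of a family of functionals = rank of the joint evaluation map -/
theorem rk_dual_eq {V : Type*} [AddCommGroup V] [Module K V] [FiniteDimensional K V]
    {γ : Type*} (φ : ι → Module.Dual K V) (A : Finset ι) (q : V →ₗ[K] (γ → K)) (ev : γ → ι)
    (hev : ∀ y, ev y ∈ A) (hq : ∀ F y, q F y = φ (ev y) F)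
    (hsurj : ∀ i ∈ A, ∃ y, φ (ev y) = φ i) :
    rk K φ A = finrank K (LinearMap.range q) := by
  have h1 := LinearMap.finrank_range_add_finrank_ker q
  have h3 := Subspace.finrank_add_finrank_dualAnnihilator_eq (LinearMap.ker q)
  have h4 : Submodule.span K (φ '' (A : Set ι)) = (LinearMap.ker q).dualAnnihilator := by
    apply le_antisymm
    · rw [Submodule.span_le]
      rintro _ ⟨i, hi, rfl⟩
      rw [SetLike.mem_coe, Submodule.mem_dualAnnihilator]
      intro F hF
      obtain ⟨y, hy⟩ := hsurj i (Finset.mem_coe.1 hi)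
      have h5 : q F y = 0 := by rw [LinearMap.mem_ker.1 hF]; rfl
      rw [hq, hy] at h5
      exact h5
    · have h6 : (Submodule.span K (φ '' (A : Set ι))).dualCoannihilator ≤ LinearMap.ker q := by
        intro F hF
        rw [Submodule.mem_dualCoannihilator] at hF
        rw [LinearMap.mem_ker]
        funext y
        rw [hq]
        exact hF _ (Submodule.subset_span ⟨ev y, Finset.mem_coe.2 (hev y), rfl⟩)
      have h7 := Submodule.dualAnnihilator_anti h6
      rwa [Subspace.dualCoannihilator_dualAnnihilator_eq] at h7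
  unfold rk
  rw [h4]
  omega

/-- rank of the evaluation functionals = rank of the restriction map -/
theorem rk_evd_eq_rkY [Finite σ] (x : ι → σ → K) (A : Finset ι) [DecidableEq (σ → K)] (n : ℕ) :
    rk K (fun i => evd n (x i)) A = rkY (A.image x) n := by
  classical
  have hch : ∀ y : ↥(A.image x), ∃ i ∈ A, x i = (y : σ → K) := fun y =>
    Finset.mem_image.1 y.2
  choose ev hev hxev using hch
  set q : restrictTotalDegree σ K n →ₗ[K] (↥(A.image x) → K) :=
    (resA (A.image x)).toLinearMap ∘ₗ (restrictTotalDegree σ K n).subtype with hq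
  have h := rk_dual_eq (fun i => evd n (x i)) A q ev hev
    (by
      intro F y
      have h6 : q F y = aeval (y : σ → K) (F : MvPolynomial σ K) := by
        simp [hq, resA]
      rw [h6, ← hxev y]
      rfl)
    (by
      intro i hi
      refine ⟨⟨x i, Finset.mem_image_of_mem x hi⟩, ?_⟩
      have := hxev ⟨x i, Finset.mem_image_of_mem x hi⟩
      simp only at this
      rw [this])
  rw [h, hq, LinearMap.range_comp, Submodule.range_subtype]
  rfl

/-! ## (a) common system from lower bounds -/

/-- inductive form -/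
theorem exists_system_ge_aux [Infinite K] [Fintype σ] (x : ι → σ → K) {A : Finset ι}
    (W : ℕ → Submodule K (MvPolynomial σ K)) (K' : ℕ) (v : ℕ → ℕ)
    (hv : ∀ k l : ℕ, k ≤ l → l < K' → v k ≤ v l)
    (hgr : ∀ k < K', ∀ e ∈ A, v k ≤ gr x A (W k) (x e)) (n : ℕ) (hn : n ≤ v (K' - 1))
    (hK : 0 < K') :
    ∃ f : Fin n → MvPolynomial σ K,
      (∀ j : Fin n, f j ∈ van x A (W ((range K').filter (fun k => v k ≤ (j : ℕ))).card)) ∧
      ∀ e ∈ A, LinearIndependent K (fun j => Vale.Agent.P054.T2.H307.grad (x e) (f j)) := by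
  classical
  induction n with
  | zero =>
    refine ⟨fun j => j.elim0, fun j => j.elim0, fun e _ => ?_⟩
    exact linearIndependent_empty_type
  | succ n ih =>
    obtain ⟨f, hf, hind⟩ := ih (by omega)
    set κ := ((range K').filter (fun k => v k ≤ n)).card with hκ
    have hκ1 : κ ≤ K' - 1 := count_le K' v hv n (K' - 1) (by omega)
    have hκ2 : κ < K' := by omega
    have hκ3 : n < v κ := lt_at_count K' v hv n hκ2
    obtain ⟨g, hg, hg'⟩ := exists_avoid_subspaces (van x A (W κ)) A
      (fun e => (Submodule.span K (Set.range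
        (fun j => Vale.Agent.P054.T2.H307.grad (x e) (f j)))).comap
        (Vale.Agent.P054.T2.H307.grad (x e)))
      (by
        intro e he hle
        have h1 : gsp x A (W κ) (x e) ≤
            Submodule.span K (Set.range (fun j =>
              Vale.Agent.P054.T2.H307.grad (x e) (f j))) := by
          unfold gsp
          rw [Submodule.map_le_iff_le_comap]
          exact hle
        have h2 := Submodule.finrank_mono h1
        have h3 : v κ ≤ finrank K (gsp x A (W κ) (x e)) := hgr κ hκ2 e he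
        rw [finrank_span_eq_card (hind e he), Fintype.card_fin] at h2
        omega)
    refine ⟨Fin.snoc f g, ?_, ?_⟩
    · intro j
      refine Fin.lastCases ?_ (fun j => ?_) j
      · rw [Fin.snoc_last]
        exact hg
      · rw [Fin.snoc_castSucc]
        exact hf j
    · intro e he
      have h1 : (fun j => Vale.Agent.P054.T2.H307.grad (x e)
          ((Fin.snoc f g : Fin (n + 1) → MvPolynomial σ K) j)) =
          Fin.snoc (fun j => Vale.Agent.P054.T2.H307.grad (x e) (f j))
            (Vale.Agent.P054.T2.H307.grad (x e) g) := by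
        funext j
        refine Fin.lastCases ?_ (fun j => ?_) j
        · simp
        · simp
      rw [h1, linearIndependent_finSnoc]
      exact ⟨hind e he, hg' e he⟩

/-- the exponent of the degree of the `j`-th equation -/
def kap (K' : ℕ) (v : ℕ → ℕ) (j : ℕ) : ℕ := ((range K').filter (fun k => v k ≤ j)).card

theorem kap_le (K' : ℕ) (v : ℕ → ℕ) (j : ℕ) : kap K' v j ≤ K' := by
  unfold kap
  exact (Finset.card_filter_le _ _).trans (by simp)

/-- (U) for the germs of a common system -/
theorem hilb_germ_le [Fintype σ] [DecidableEq σ] (x : ι → σ → K) (A : Finset ι) {c : ℕ}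
    (f : Fin c → MvPolynomial σ K) (d : ℕ → ℕ) (hd1 : ∀ j, 1 ≤ d j)
    (hd : ∀ j : Fin c, (f j).totalDegree ≤ d j) (hev : ∀ e ∈ A, ∀ j, eval (x e) (f j) = 0)
    (hind : ∀ e ∈ A, LinearIndependent K (fun j => Vale.Agent.P054.T2.H930.grad (x e) (f j)))
    (hc : c ≤ Fintype.card σ) (n : ℕ) :
    hilb (⨅ e ∈ A, Vale.Agent.P054.T2.H930.germ (x e) f) n ≤
      (∏ j ∈ range c, d j) * ((c + 1) ^ Fintype.card σ * (n + 1) ^ (Fintype.card σ - c)) := by
  classical
  set g : ℕ → MvPolynomial σ K := fun j => if h : j < c then f ⟨j, h⟩ else 0 with hg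
  have h := hilb_primes_le A (fun j e => Vale.Agent.P054.T2.H930.germChain (x e) f j) c
    (fun j _ e he => Vale.Agent.P054.T2.H930.germChain_isPrime (hev e he) (hind e he) j)
    (fun j _ e _ => Vale.Agent.P054.T2.H930.germChain_mono (x e) f (Nat.le_succ j))
    g
    (fun j hj e _ => by
      simp only [hg, dif_pos hj]
      exact Vale.Agent.P054.T2.H930.mem_germChain_succ (x e) f ⟨j, hj⟩)
    (fun j hj e he => by
      simp only [hg, dif_pos hj]
      exact Vale.Agent.P054.T2.H930.notMem_germChain (hev e he) (hind e he) ⟨j, hj⟩)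
    d (fun j _ => hd1 j)
    (fun j hj => by
      simp only [hg, dif_pos hj]
      exact hd ⟨j, hj⟩)
    n hc
  have h2 : (⨅ e ∈ A, Vale.Agent.P054.T2.H930.germChain (x e) f c) =
      ⨅ e ∈ A, Vale.Agent.P054.T2.H930.germ (x e) f := by
    refine iInf_congr fun e => iInf_congr fun _ => ?_
    exact Vale.Agent.P054.T2.H930.germChain_top (x e) f le_rfl
  rw [← h2]
  exact h

/-- **(a) COMMON SYSTEM** from lower bounds of the gradient ranks at the scales `b ^ k`, and the
bound (U) for the germs. -/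
theorem exists_common [Infinite K] [Fintype σ] [DecidableEq σ] (x : ι → σ → K) (A : Finset ι)
    (b : ℕ) (hb : 1 ≤ b) (K' : ℕ) (hK : 0 < K') (v : ℕ → ℕ)
    (hv : ∀ k l : ℕ, k ≤ l → l < K' → v k ≤ v l) (hvN : v (K' - 1) ≤ Fintype.card σ)
    (hgr : ∀ k < K', ∀ e ∈ A, v k ≤ gr x A (restrictTotalDegree σ K (b ^ k)) (x e)) :
    ∃ f : Fin (v (K' - 1)) → MvPolynomial σ K,
      (∀ j : Fin (v (K' - 1)), f j ∈ van x A (restrictTotalDegree σ K (b ^ kap K' v (j : ℕ)))) ∧
      (∀ k < K', ∀ j : Fin (v (K' - 1)), (j : ℕ) < v k → f j ∈ van x A (restrictTotalDegree σ K (b ^ k))) ∧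
      (∀ e ∈ A, LinearIndependent K (fun j => Vale.Agent.P054.T2.H930.grad (x e) (f j))) ∧
      ∀ n, hilb (⨅ e ∈ A, Vale.Agent.P054.T2.H930.germ (x e) f) n ≤
        (∏ j ∈ range (v (K' - 1)), b ^ kap K' v j) *
          ((v (K' - 1) + 1) ^ Fintype.card σ * (n + 1) ^ (Fintype.card σ - v (K' - 1))) := by
  classical
  obtain ⟨f, hf, hind⟩ := exists_system_ge_aux x (fun k => restrictTotalDegree σ K (b ^ k)) K' v hv hgr (v (K' - 1)) le_rfl hK
  have hf' : ∀ k < K', ∀ j : Fin (v (K' - 1)), (j : ℕ) < v k → f j ∈ van x A (restrictTotalDegree σ K (b ^ k)) := by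
    intro k hk j hj
    have h1 := count_le K' v hv j k hj
    refine van_mono (Finset.Subset.refl _) ?_ (hf j)
    intro g hg
    rw [mem_restrictTotalDegree] at hg ⊢
    exact hg.trans (Nat.pow_le_pow_right hb h1)
  have hind' : ∀ e ∈ A, LinearIndependent K
      (fun j => Vale.Agent.P054.T2.H930.grad (x e) (f j)) := fun e he => hind e he
  have hev : ∀ e ∈ A, ∀ j, eval (x e) (f j) = 0 := fun e he j => (hf j).2 e he
  exact ⟨f, hf, hf', hind', fun n => hilb_germ_le x A f (fun j => b ^ kap K' v j)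
    (fun j => Nat.one_le_pow _ _ hb) (fun j => (mem_restrictTotalDegree _ _ _).1 (hf j).1) hev hind' hvN n⟩

/-- the sum of the exponents of the degrees and the slope: `∑_{j<c} κ_j + K'(N - c) = ∑ (N - v i)` -/
theorem sum_kap (K' N : ℕ) (hK : 0 < K') (v : ℕ → ℕ)
    (hv : ∀ k l : ℕ, k ≤ l → l < K' → v k ≤ v l) (hvN : v (K' - 1) ≤ N) :
    (∑ j ∈ range (v (K' - 1)), kap K' v j) + K' * (N - v (K' - 1)) =
      ∑ k ∈ range K', (N - v k) := by
  have hvN' : ∀ k < K', v k ≤ N := fun k hk => (hv k (K' - 1) (by omega) (by omega)).trans hvN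
  rw [sum_slopes N K' v hvN']
  obtain ⟨m, hm⟩ := Nat.exists_eq_add_of_le hvN
  rw [hm, Finset.sum_range_add]
  congr 1
  have h1 : ∀ j ∈ range m, ((range K').filter (fun k => v k ≤ v (K' - 1) + j)).card = K' := by
    intro j _
    rw [Finset.filter_true_of_mem, card_range]
    intro k hk
    have := hv k (K' - 1) (by have := mem_range.1 hk; omega) (by omega)
    omega
  rw [Finset.sum_congr rfl h1, Finset.sum_const, card_range, smul_eq_mul]
  have : v (K' - 1) + m - v (K' - 1) = m := by omega
  rw [this, mul_comm]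

/-- **(U)** rank bound at the scale `b ^ K'` -/
theorem rkY_upper [Infinite K] [Fintype σ] [DecidableEq σ] [DecidableEq (σ → K)]
    (x : ι → σ → K) (A : Finset ι)
    (b : ℕ) (hb : 1 ≤ b) (K' : ℕ) (v : ℕ → ℕ)
    (hv : ∀ k l : ℕ, k ≤ l → l < K' → v k ≤ v l) (hvN : ∀ k < K', v k ≤ Fintype.card σ)
    (hgr : ∀ k < K', ∀ e ∈ A, v k ≤ gr x A (restrictTotalDegree σ K (b ^ k)) (x e)) :
    rkY (A.image x) (b ^ K') ≤ (2 * (Fintype.card σ + 1)) ^ Fintype.card σ *
      b ^ (∑ k ∈ range K', (Fintype.card σ - v k)) := by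
  classical
  set N := Fintype.card σ with hN
  rcases Nat.eq_zero_or_pos K' with rfl | hK
  · -- scale 1
    rw [← rk_evd_eq_rkY x A]
    have h0 : rk K (fun i => evd (b ^ 0) (x i)) A ≤
        finrank K (restrictTotalDegree σ K (b ^ 0)) := by
      unfold rk
      have := Submodule.finrank_le (Submodule.span K
        ((fun i => evd (b ^ 0) (x i)) '' (A : Set ι)))
      rwa [Subspace.dual_finrank_eq] at this
    refine h0.trans ((Vale.Agent.P054.T2.H580.finrank_restrict_le _).trans ?_)
    simp only [pow_zero, range_zero, sum_empty, mul_one]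
    rw [← hN]
    exact Nat.pow_le_pow_left (by omega) _
  · have hvN1 : v (K' - 1) ≤ N := hvN _ (by omega)
    obtain ⟨f, hf, -, hind, hU⟩ := exists_common x A b hb K' hK v hv hvN1 hgr
    have hev : ∀ e ∈ A, ∀ j, eval (x e) (f j) = 0 := fun e he j => (hf j).2 e he
    have h1 : rk K (fun i => evd (b ^ K') (x i)) A ≤
        hilb (⨅ e ∈ A, Vale.Agent.P054.T2.H930.germ (x e) f) (b ^ K') := by
      refine Vale.Agent.P054.T2.H580.rk_evd_le_hilb _ x A ?_ _
      intro e he F hF
      simp only [Submodule.mem_iInf] at hF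
      exact Vale.Agent.P054.T2.H930.eval_eq_zero_of_mem_germ (hev e he) (hF e he)
    rw [rk_evd_eq_rkY x A] at h1
    refine h1.trans ((hU _).trans ?_)
    rw [Finset.prod_pow_eq_pow_sum]
    have hb1 : 1 ≤ b ^ K' := Nat.one_le_pow _ _ hb
    have h2 : (b ^ K' + 1) ^ (N - v (K' - 1)) ≤ 2 ^ N * b ^ (K' * (N - v (K' - 1))) := by
      calc (b ^ K' + 1) ^ (N - v (K' - 1)) ≤ (2 * b ^ K') ^ (N - v (K' - 1)) :=
            Nat.pow_le_pow_left (by omega) _
        _ = 2 ^ (N - v (K' - 1)) * b ^ (K' * (N - v (K' - 1))) := by rw [mul_pow, ← pow_mul]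
        _ ≤ _ := Nat.mul_le_mul_right _ (Nat.pow_le_pow_right (by norm_num) (Nat.sub_le _ _))
    have h3 : (v (K' - 1) + 1) ^ N ≤ (N + 1) ^ N := Nat.pow_le_pow_left (by omega) _
    rw [← sum_kap K' N hK v hv hvN1]
    calc b ^ (∑ j ∈ range (v (K' - 1)), kap K' v j) *
          ((v (K' - 1) + 1) ^ N * (b ^ K' + 1) ^ (N - v (K' - 1)))
        ≤ b ^ (∑ j ∈ range (v (K' - 1)), kap K' v j) *
          ((N + 1) ^ N * (2 ^ N * b ^ (K' * (N - v (K' - 1))))) :=
          Nat.mul_le_mul_left _ (Nat.mul_le_mul h3 h2)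
      _ = (2 * (N + 1)) ^ N * b ^ (∑ j ∈ range (v (K' - 1)), kap K' v j +
          K' * (N - v (K' - 1))) := by
          rw [pow_add, mul_pow]; ring

end Vale.Agent.P054.T2.H686
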