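import Vale.Agent.P054.T2.H686.Assembly
import Vale.Agent.P054.T2.H686.Deg0
import Vale.Agent.P054.T2.H580.Uni
import Vale.Agent.P054.T2.H275.Indep

set_option autoImplicit false
set_option linter.all false

/-!
# P054 / T2, assembly (3): section A on a uniform set; `MainAB` from section B
-/

namespace Vale.Agent.P054.T2.H686

open Finset MvPolynomial Module
open Vale.Agent.P054.T2.SecC
open Vale.Agent.P054.T2.H307 (van mem_van IsUnif cA JA FI isFam_F isFam_L1 isFam_L2 fib mem_fib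
  fib_unit xF xL Ed ZK IsFamL gfL gfr gr exists_unif cA_le cA_mono NN pts mem_pts core)
open Vale.Agent.P054.T2.H580 (Par rkF IsFilt fam_lower core_nonempty one_le_rkF fib_eq)
open Vale.Agent.P054.T2.H441 (rkY)


variable {n : ℕ}

/-! ## the numbers of the uniformisation -/

theorem exists_par0 (N L K₀ q nJ : ℕ) (hL : 0 < L) :
    ∃ C₁ β₀ : ℕ, ∀ β, β₀ ≤ β → ∃ k, Par N k β C₁ L K₀ q nJ := by
  set M := N + 2 + q * (K₀ * L * nJ) with hM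
  refine ⟨M, M + 1 + (2 * (N + 2)) ^ N * (M ^ N * N.factorial) ^ (2 * K₀), fun β hβ => ?_⟩
  have hM0 : 0 < M := by omega
  set k := (β - 1) / M with hk
  have h1 : k * M ≤ β - 1 := Nat.div_mul_le_self _ _
  have h2 : β - 1 < (k + 1) * M := by
    rw [hk]
    exact Nat.lt_mul_of_div_lt (Nat.lt_succ_self _) hM0
  have hk0 : 0 < k := Nat.div_pos (by omega) hM0
  have h3 : k * (N + 2) ≤ k * M := Nat.mul_le_mul_left _ (by omega)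
  have h4 : q * (K₀ * (L * k) * nJ) ≤ k * M := by
    calc q * (K₀ * (L * k) * nJ) = k * (q * (K₀ * L * nJ)) := by ring
      _ ≤ k * M := Nat.mul_le_mul_left _ (by omega)
  have h5 : (k + 1) * M = M * (k + 1) := mul_comm _ _
  refine ⟨k, hk0, hL, ?_, ?_, ?_, ?_, ?_⟩
  · omega
  · omega
  · omega
  · omega
  · omega

/-! ## tight window on a uniform set -/

theorem pts_eq_image {ι σ K : Type*} [DecidableEq (σ → K)] (x : ι → σ → K) (A : Finset ι) :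
    pts x A = A.image x := by
  ext y
  rw [mem_pts, Finset.mem_image]

theorem F_mem_JA {k K : ℕ} (hk : k ≤ K) : (FI.F, k) ∈ JA K := by
  rw [H307.mem_JA]
  exact ⟨H307.mem_famA.2 (Or.inl rfl), hk⟩

theorem L1_mem_JA {k K : ℕ} (hk : k ≤ K) : (FI.L1, k) ∈ JA K := by
  rw [H307.mem_JA]
  exact ⟨H307.mem_famA.2 (Or.inr (Or.inl rfl)), hk⟩

theorem L2_mem_JA {k K : ℕ} (hk : k ≤ K) : (FI.L2, k) ∈ JA K := by
  rw [H307.mem_JA]
  exact ⟨H307.mem_famA.2 (Or.inr (Or.inr (Or.inl rfl))), hk⟩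

theorem JA_card_pos (K : ℕ) : 0 < (JA K).card :=
  Finset.card_pos.2 ⟨_, F_mem_JA (Nat.zero_le K)⟩

theorem jcount {N k β C₁ L K q nJ : ℕ} (hP : Par N k β C₁ L K q nJ) (hq3 : 3 ≤ q) (hK : 1 ≤ K)
    (h0 : 0 < nJ) : nJ < β := by
  have h2 : 1 ≤ K * (L * k) := Nat.mul_pos hK (Nat.mul_pos hP.hL hP.hk)
  have h3 : 3 * (1 * nJ) ≤ q * (K * (L * k) * nJ) :=
    Nat.mul_le_mul hq3 (Nat.mul_le_mul_right _ h2)
  have h4 := hP.hq
  omega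

theorem cA_F_eq (b i : ℕ) (A : Finset (ZZ n × ZZ n)) (e : ZZ n × ZZ n) :
    cA n ℝ b (FI.F, i) A e = gr (gpt (id : ZZ n → ZZ n)) A
      (restrictTotalDegree (Crd n) ℝ (b ^ i)) (gpt (id : ZZ n → ZZ n) e) := by
  have h2 : fib (fun _ : ZZ n × ZZ n => ()) A () = A := fib_unit A ()
  have h1 : cA n ℝ b (FI.F, i) A e = gr (xF : Ed n ℝ → _) (fib (fun _ => ()) A ())
    (restrictTotalDegree (Crd n) ℝ (1 * b ^ i)) (xF e) := rfl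
  rw [h1, h2, one_mul]
  rfl

theorem cA_L1_eq [DecidableEq (ZZ n)] (b i : ℕ) (A : Finset (ZZ n × ZZ n)) (e : ZZ n × ZZ n) :
    cA n ℝ b (FI.L1, i) A e = gr (upt (id : ZZ n → ZZ n)) (A.filter fun x => x.1 = e.1)
      (restrictTotalDegree (Fin n) ℝ (b ^ i)) (upt (id : ZZ n → ZZ n) e) := by
  have h1 : cA n ℝ b (FI.L1, i) A e = gr (xL : Ed n ℝ → _) (fib Prod.fst A e.1)
    (restrictTotalDegree (Fin n) ℝ (1 * b ^ i)) (xL e) := rfl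
  rw [h1, one_mul, fib_eq]
  rfl

theorem cA_L2_eq [DecidableEq (ZZ n)] (b i : ℕ) (A : Finset (ZZ n × ZZ n)) (e : ZZ n × ZZ n) :
    cA n ℝ b (FI.L2, i) A e = gr (upt (id : ZZ n → ZZ n)) (A.filter fun x => x.2 = e.2)
      (restrictTotalDegree (Fin n) ℝ (b ^ i)) (upt (id : ZZ n → ZZ n) e) := by
  have h1 : cA n ℝ b (FI.L2, i) A e = gr (xL : Ed n ℝ → _) (fib Prod.snd A e.2)
    (restrictTotalDegree (Fin n) ℝ (1 * b ^ i)) (xL e) := rfl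
  rw [h1, one_mul, fib_eq]
  rfl

/-- lower bound of the ranks of dense subsets, family `F` -/
theorem lower_F {β L K k C₁ q : ℕ} (hP : Par (NN n) k β C₁ L K q (JA K).card)
    (hq3 : 3 ≤ q) {E' : Finset (ZZ n × ZZ n)} (hE : E'.Nonempty) {v : FI × ℕ → ℕ}
    (hU : IsUnif (cA n ℝ (β ^ L)) (JA K) β E' v) [DecidableEq (Crd n → ℝ)] :
    ∀ A ⊆ E', E'.card ≤ 2 * A.card →
      (β ^ L) ^ (∑ j ∈ range K, ((2 * n + 1) - v (FI.F, j))) ≤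
        (((C₁ ^ (2 * n + 1) * (2 * n + 1).factorial) ^ L) ^ K *
          (β ^ L) ^ ((2 * n + 1) * (2 * n + 1))) *
        rkY (A.image (gpt (id : ZZ n → ZZ n))) ((β ^ L) ^ K) := by
  have hmono : ∀ j ∈ JA K, ∀ A B : Finset (ZZ n × ZZ n), A ⊆ B → B ⊆ E' → ∀ e ∈ A,
      cA n ℝ (β ^ L) j B e ≤ cA n ℝ (β ^ L) j A e := fun j _ A B hAB _ e _ => cA_mono _ j hAB e
  have hcN : Fintype.card (Crd n) = 2 * n + 1 := card_Crd n
  intro A hA hAE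
  have hEpos : 0 < E'.card := Finset.card_pos.2 hE
  obtain ⟨e, he⟩ := core_nonempty hP hU hmono hA hq3 (by omega)
  have h1 := fam_lower hP (V := restrictTotalDegree (Crd n) ℝ) H580.isFilt_total
    (fun m i F hF => by
      rw [mem_restrictTotalDegree] at hF ⊢
      exact ((H275.totalDegree_pderiv_le' i F).trans (Nat.sub_le _ _)).trans hF)
    (a := 1) (fun i => by
      rw [mem_restrictTotalDegree]
      exact (totalDegree_X i).le)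
    (by rw [hcN]; unfold NN; omega) (x := (xF : Ed n ℝ → _)) (p := fun _ => ())
    (K' := K) le_rfl (isFam_F (β ^ L) K).isFam (A := A) he
  rw [hcN] at h1
  refine le_trans ?_ (h1.trans (le_of_eq ?_))
  · refine Nat.le_mul_of_pos_right _ (one_le_rkF H580.isFilt_total ?_ _)
    exact ⟨xF e, mem_pts.2 ⟨e, mem_fib.2 ⟨he, rfl⟩, rfl⟩⟩
  · rw [fib_unit, pts_eq_image, one_mul]
    rfl

/-- **section A**: tight window for the families `F`, `L1`, `L2` on a uniform set -/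
theorem window_of_unif {β L K k C₁ q m t W : ℕ} (hP : Par (NN n) k β C₁ L K q (JA K).card)
    (hq3 : 3 ≤ q) {E' : Finset (ZZ n × ZZ n)} (hE : E'.Nonempty) {v : FI × ℕ → ℕ}
    (hU : IsUnif (cA n ℝ (β ^ L)) (JA K) β E' v) (Sg : Finset (ZZ n))
    (hS1 : ∀ e ∈ E', e.1 ∈ Sg) (hS2 : ∀ e ∈ E', e.2 ∈ Sg)
    (h0 : ∀ e ∈ E', e.1.1 0 ≠ e.2.1 0) (hq : ∀ e ∈ E', Qf (e.1 - e.2) = 0)
    (hΛ : Sg.card ^ 2 ≤ 4 * t * β ^ L * E'.card)
    (hconst : 32 * ((2 * (n + 1)) ^ n) ^ 2 ≤ β)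
    (ht : t ^ (m + 1) ≤ (β ^ L) ^ (m * K))
    (hK : (m + 1) * (((2 * n + 1) * (2 * n + 1) + 3) + (3 * (2 * n + 1) + 1) * W) ≤ K) :
    ∃ k₀, k₀ + W ≤ K ∧ ∀ k, k₀ ≤ k → k < k₀ + W →
      v (FI.F, k) = v (FI.F, k₀) ∧ v (FI.L1, k) = v (FI.L1, k₀) ∧ v (FI.L2, k) = v (FI.L2, k₀) ∧
      (2 * n + 1) - v (FI.F, k) = (n - v (FI.L1, k)) + (n - v (FI.L2, k)) := by
  classical
  have hβ1 : 1 < β := hP.beta_gt_one
  have hb1 : 1 < β ^ L := hP.b_gt_one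
  have hL0 := hP.hL
  have hβb : β ≤ β ^ L := Nat.le_self_pow hL0.ne' β
  have hK3 : 3 ≤ K := by
    have h1 : 1 * 3 ≤ (m + 1) * (((2 * n + 1) * (2 * n + 1) + 3) + (3 * (2 * n + 1) + 1) * W) :=
      Nat.mul_le_mul (by omega) (by omega)
    omega
  have hK1 : 1 ≤ K := by omega
  have hJβ : (JA K).card < β :=
    jcount hP hq3 hK1 (JA_card_pos K)
  have hβ2 : 2 ≤ β := hβ1
  have hb2 : 2 ≤ β ^ L := hb1
  have hmono : ∀ j ∈ JA K, ∀ A B : Finset (ZZ n × ZZ n), A ⊆ B → B ⊆ E' → ∀ e ∈ A,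
      cA n ℝ (β ^ L) j B e ≤ cA n ℝ (β ^ L) j A e := fun j _ A B hAB _ e _ => cA_mono _ j hAB e
  have hC : (((C₁ ^ (2 * n + 1) * (2 * n + 1).factorial) ^ L) ^ K *
      (β ^ L) ^ ((2 * n + 1) * (2 * n + 1))) * (8 * (4 * t * β ^ L) * ((2 * (n + 1)) ^ n) ^ 2) ≤
      t * (β ^ L) ^ ((2 * n + 1) * (2 * n + 1) + 3) := by
    have e1 : ((C₁ ^ (2 * n + 1) * (2 * n + 1).factorial) ^ L) ^ K ≤ β ^ L := by
      have h1 := hP.loss (M₁ := 0) (M₂ := 2 * n + 1) (M₃ := 0) (K₁ := K) (K₂ := 0) (Nat.zero_le _)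
        (by unfold NN; omega) (Nat.zero_le _) le_rfl (Nat.zero_le _)
      simpa using h1
    generalize ((C₁ ^ (2 * n + 1) * (2 * n + 1).factorial) ^ L) ^ K = X at e1 ⊢
    generalize (2 * n + 1) * (2 * n + 1) = M
    have e2 : 32 * ((2 * (n + 1)) ^ n) ^ 2 ≤ β ^ L := hconst.trans hβb
    generalize ((2 * (n + 1)) ^ n) ^ 2 = Y at e2 ⊢
    generalize β ^ L = b at e1 e2 ⊢
    calc X * b ^ M * (8 * (4 * t * b) * Y) = X * b ^ M * ((32 * Y) * (t * b)) := by ring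
      _ ≤ b * b ^ M * (b * (t * b)) := by gcongr
      _ = t * b ^ (M + 3) := by ring
  have hLO := lower_F hP hq3 hE hU
  have hcF : ∀ k < K, ∀ e ∈ E', cA n ℝ (β ^ L) (FI.F, k) E' e =
    gr (gpt (id : ZZ n → ZZ n)) E' (restrictTotalDegree (Crd n) ℝ ((β ^ L) ^ k))
      (gpt (id : ZZ n → ZZ n) e) := fun k _ e _ => cA_F_eq _ k E' e
  have hc1 : ∀ k < K, ∀ e ∈ E', cA n ℝ (β ^ L) (FI.L1, k) E' e =
    gr (upt (id : ZZ n → ZZ n)) (E'.filter fun x => x.1 = e.1)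
      (restrictTotalDegree (Fin n) ℝ ((β ^ L) ^ k)) (upt (id : ZZ n → ZZ n) e) :=
    fun k _ e _ => cA_L1_eq _ k E' e
  have hc2 : ∀ k < K, ∀ e ∈ E', cA n ℝ (β ^ L) (FI.L2, k) E' e =
    gr (upt (id : ZZ n → ZZ n)) (E'.filter fun x => x.2 = e.2)
      (restrictTotalDegree (Fin n) ℝ ((β ^ L) ^ k)) (upt (id : ZZ n → ZZ n) e) :=
    fun k _ e _ => cA_L2_eq _ k E' e
  generalize (2 * n + 1) * (2 * n + 1) = M at hC hLO hK
  generalize ((C₁ ^ (2 * n + 1) * (2 * n + 1).factorial) ^ L) ^ K * (β ^ L) ^ M = c₀ at hC hLO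
  generalize cA n ℝ (β ^ L) = c at hU hmono hcF hc1 hc2
  generalize β ^ L = b at *
  exact tight_window_unif (id : ZZ n → ZZ n) Sg c (JA K) β E' v hU hmono hβ2 hJβ
    hE hS1 hS2 h0 hq b t K m c₀ (4 * t * b) (M + 3) W hb2 hΛ
    (fun k => (FI.F, k)) (fun k => (FI.L1, k)) (fun k => (FI.L2, k))
    (fun k hk => F_mem_JA (Nat.le_of_lt hk)) (fun k hk => L1_mem_JA (Nat.le_of_lt hk))
    (fun k hk => L2_mem_JA (Nat.le_of_lt hk))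
    hcF hc1 hc2 hLO hC ht hK

/-! ## `MainAB` from section B -/

/-- **what section B has to deliver**: for every uniform set `E'` of edges with a tight window
`[k₀, k₀ + W₀)` and both leaf dimensions positive, the output `ABMain`. -/
def SecB (n : ℕ) : Prop :=
  ∃ W₀ q a₀ a₁ a₃ Cst : ℕ, ∀ K L C₁ : ℕ, 1 ≤ L → ∃ β₁ : ℕ, ∀ β k : ℕ, β₁ ≤ β →
    Par (NN n) k β C₁ L K q (JA K).card →
    ∀ (t : ℕ) (P : Finset (E n)) (B : E n ≃ₗᵢ[ℝ] E n) (G : ℕ → ℕ) (E' : Finset (ZZ n × ZZ n))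
      (v : FI × ℕ → ℕ) (k₀ : ℕ), Gm P B → 1 ≤ t → (dists P).card ≤ t → IsoB n P G →
      E' ⊆ Ez P B β → E'.Nonempty → IsUnif (cA n ℝ (β ^ L)) (JA K) β E' v → k₀ + W₀ ≤ K →
      (∀ k, k₀ ≤ k → k < k₀ + W₀ →
        v (FI.F, k) = v (FI.F, k₀) ∧ v (FI.L1, k) = v (FI.L1, k₀) ∧
        v (FI.L2, k) = v (FI.L2, k₀) ∧
        (2 * n + 1) - v (FI.F, k) = (n - v (FI.L1, k)) + (n - v (FI.L2, k))) →
      v (FI.L1, k₀) < n → v (FI.L2, k₀) < n →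
      ∃ (A : Finset (ZZ n × ZZ n)) (W D σ₁ σ₂ v₁ v₂ : ℕ) (S₁ : Side n A W D σ₁ v₂)
        (S₂ : Side n (swp A) W D σ₂ v₁) (κ : Type) (Q : ZZ n × ZZ n → κ),
        A ⊆ E' ∧ E'.card ≤ (β ^ L) ^ a₀ * A.card ∧ W ≤ (β ^ L) ^ K ∧ D ≤ (β ^ L) ^ a₁ ∧
        (∀ e ∈ A, ∀ e' ∈ A, Q e = Q e' → S₁.Pr e = S₁.Pr e') ∧
        (∀ e ∈ A, ∀ e' ∈ A, Q e = Q e' → S₂.Pr e.swap = S₂.Pr e'.swap) ∧
        (∀ e ∈ A, S₁.Cnt (8 * t) (G σ₁) e ∨ S₂.Cnt (8 * t) (G σ₂) e.swap ∨ SecC.BB S₁ S₂ e) ∧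
        (v₁ = 0 → v₂ = 0 → ∃ X : Finset κ, (∀ e ∈ A, Q e ∈ X) ∧
          X.card ≤ Cst * D ^ a₃ * W ^ (2 * n + 1 - (σ₁ + σ₂)))

/-- number of points against the uniform set -/
theorem lam_of_unif {P : Finset (E n)} {B : E n ≃ₗᵢ[ℝ] E n} {β b t : ℕ}
    {E' : Finset (ZZ n × ZZ n)} (h4 : P.card ^ 4 ≤ 4 * (t * (Ez P B β).card))
    (hE : (Ez P B β).card ≤ b * E'.card) : (Sz P B).card ^ 2 ≤ 4 * t * b * E'.card := by
  rw [card_Sz]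
  calc (P.card ^ 2) ^ 2 = P.card ^ 4 := by ring
    _ ≤ 4 * (t * (Ez P B β).card) := h4
    _ ≤ 4 * (t * (b * E'.card)) := by gcongr
    _ = 4 * t * b * E'.card := by ring

/-- degenerate output from a uniform set -/
theorem deg_of_unif {P : Finset (E n)} {B : E n ≃ₗᵢ[ℝ] E n} {β L K a₀ a₁ : ℕ} (hβ : 1 < β)
    (hL : 1 ≤ L) (ha₀ : 1 ≤ a₀) (ha₁ : 1 ≤ a₁)
    {E' : Finset (ZZ n × ZZ n)} (hE'E : E' ⊆ Ez P B β) (hE : E'.Nonempty)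
    (hEc : (Ez P B β).card ≤ β ^ L * E'.card) {v : FI × ℕ → ℕ}
    (hU : IsUnif (cA n ℝ (β ^ L)) (JA K) β E' v) (hconst : (n + 1) ^ n ≤ β) {k₀ : ℕ}
    (hk₀ : k₀ ≤ K) (hfull : v (FI.L1, k₀) = n ∨ v (FI.L2, k₀) = n) :
    ABDeg n P B β (β ^ L) a₀ a₁ ((β ^ L) ^ K) := by
  classical
  have hb1 : 1 ≤ β ^ L := Nat.one_le_pow _ _ (by omega)
  have hβb : β ≤ β ^ L := Nat.le_self_pow (by omega) β
  have hle : (n + 1) ^ n * ((β ^ L) ^ k₀) ^ n ≤ (β ^ L) ^ a₁ * ((β ^ L) ^ k₀) ^ n :=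
    Nat.mul_le_mul_right _ ((hconst.trans hβb).trans (Nat.le_self_pow (by omega) _))
  refine ⟨E', (β ^ L) ^ k₀, hE'E, ?_, Nat.pow_le_pow_right hb1 hk₀, ?_⟩
  · exact hEc.trans (Nat.mul_le_mul_right _ (Nat.le_self_pow (by omega) _))
  · rcases hfull with hf | hf
    · left
      intro s
      refine ⟨(fib Prod.fst E' s).image (xL : Ed n ℝ → _), ?_, ?_⟩
      · exact (card_leaf_of_full hβ hb1 hE hU Prod.fst FI.L1 (isFam_L1 (β ^ L) K) hk₀ hf s).trans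
          hle
      · intro e he hes
        exact Finset.mem_image.2 ⟨e, mem_fib.2 ⟨he, hes⟩, rfl⟩
    · right
      intro s
      refine ⟨(fib Prod.snd E' s).image (xL : Ed n ℝ → _), ?_, ?_⟩
      · exact (card_leaf_of_full hβ hb1 hE hU Prod.snd FI.L2 (isFam_L2 (β ^ L) K) hk₀ hf s).trans
          hle
      · intro e he hes
        exact Finset.mem_image.2 ⟨e, mem_fib.2 ⟨he, hes⟩, rfl⟩

theorem cA_L1_le (b k : ℕ) (A : Finset (ZZ n × ZZ n)) (e : ZZ n × ZZ n) :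
    cA n ℝ b (FI.L1, k) A e ≤ n := by
  have h1 : cA n ℝ b (FI.L1, k) A e = gfL (xL : Ed n ℝ → _) Prod.fst
    (restrictTotalDegree (Fin n) ℝ) (LinearMap.id : (Fin n → ℝ) →ₗ[ℝ] (Fin n → ℝ))
    (1 * b ^ k) A e := rfl
  rw [h1]
  exact (H307.gfL_le _ _ _ _ _ _ _).trans (le_of_eq (Fintype.card_fin n))

theorem cA_L2_le (b k : ℕ) (A : Finset (ZZ n × ZZ n)) (e : ZZ n × ZZ n) :
    cA n ℝ b (FI.L2, k) A e ≤ n := by
  have h1 : cA n ℝ b (FI.L2, k) A e = gfL (xL : Ed n ℝ → _) Prod.snd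
    (restrictTotalDegree (Fin n) ℝ) (LinearMap.id : (Fin n → ℝ) →ₗ[ℝ] (Fin n → ℝ))
    (1 * b ^ k) A e := rfl
  rw [h1]
  exact (H307.gfL_le _ _ _ _ _ _ _).trans (le_of_eq (Fintype.card_fin n))

theorem L_le {β L K k₀ : ℕ} {E' : Finset (ZZ n × ZZ n)} {v : FI × ℕ → ℕ} (F : FI)
    (hF : (F, k₀) ∈ JA K) (hE : E'.Nonempty) (hU : IsUnif (cA n ℝ (β ^ L)) (JA K) β E' v) {N : ℕ}
    (hN : ∀ e, cA n ℝ (β ^ L) (F, k₀) E' e ≤ N) : v (F, k₀) ≤ N := by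
  obtain ⟨e, he⟩ := hE
  exact (hU.le _ hF E' (Finset.Subset.refl _) e he).trans (hN e)

theorem par_mono {N k β C₁ L K₀ q q' nJ : ℕ} (h : Par N k β C₁ L K₀ q' nJ) (hq : q ≤ q') :
    Par N k β C₁ L K₀ q nJ :=
  ⟨h.hk, h.hL, h.hβ, h.hC, h.hC1, (Nat.mul_le_mul_right _ hq).trans h.hq, h.hconst⟩

/-- existence of the uniform set with a tight window -/
theorem exists_unif_window {q m W K₁ K L : ℕ} (hq3 : 3 ≤ q)
    (hK : K = K₁ + (m + 1) * (((2 * n + 1) * (2 * n + 1) + 3) + (3 * (2 * n + 1) + 1) * W))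
    (hL : L = NN n * (JA K).card + 1) {β k C₁ : ℕ}
    (hP : Par (NN n) k β C₁ L K q (JA K).card) (hconst : 32 * ((2 * (n + 1)) ^ n) ^ 2 ≤ β)
    (hn : 1 ≤ n) {t : ℕ} {P : Finset (E n)} {B : E n ≃ₗᵢ[ℝ] E n} (hB : Gm P B)
    (ht : t ^ (m + 1) ≤ (β ^ L) ^ (m * K))
    (h4 : P.card ^ 4 ≤ 4 * (t * (Ez P B β).card)) (hne : (Ez P B β).Nonempty) :
    ∃ (E' : Finset (ZZ n × ZZ n)) (v : FI × ℕ → ℕ) (k₀ : ℕ), E' ⊆ Ez P B β ∧ E'.Nonempty ∧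
      (Ez P B β).card ≤ β ^ L * E'.card ∧ IsUnif (cA n ℝ (β ^ L)) (JA K) β E' v ∧ k₀ + W ≤ K ∧
      ∀ k, k₀ ≤ k → k < k₀ + W →
        v (FI.F, k) = v (FI.F, k₀) ∧ v (FI.L1, k) = v (FI.L1, k₀) ∧
        v (FI.L2, k) = v (FI.L2, k₀) ∧
        (2 * n + 1) - v (FI.F, k) = (n - v (FI.L1, k)) + (n - v (FI.L2, k)) := by
  classical
  have hβ1 : 1 ≤ β := Nat.le_of_lt hP.beta_gt_one
  obtain ⟨E', hE'E, hE, v, -, hc, hU⟩ := exists_unif (Ez P B β) hne (JA K) (cA n ℝ (β ^ L))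
    (NN n) β hβ1 (fun j _ A _ e _ => cA_le _ j A e)
    (fun j _ A A' hA _ e _ => cA_mono _ j hA e)
  have hEc : (Ez P B β).card ≤ β ^ L * E'.card := by
    refine hc.trans (Nat.mul_le_mul_right _ (Nat.pow_le_pow_right hβ1 ?_))
    rw [hL]
    exact Nat.le_succ _
  obtain ⟨k₀, hk₀, hw⟩ := window_of_unif hP hq3 hE hU (Sz P B) (fun e he => Ez_fst (hE'E he))
    (fun e he => Ez_snd (hE'E he)) (fun e he => Ez_ne hB hn (hE'E he))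
    (fun e he => Ez_Qf (hE'E he)) (lam_of_unif h4 hEc) hconst ht
    (by rw [hK]; exact Nat.le_add_left _ _)
  exact ⟨E', v, k₀, hE'E, hE, hEc, hU, hk₀, hw⟩

/-- **section A**: `SecB n` gives `MainAB n` -/
theorem mainAB_of_secB (hn : 1 ≤ n) (h : SecB n) : MainAB n := by
  classical
  obtain ⟨W₀, q₀, a₀, a₁, a₃, Cst, h⟩ := h
  refine ⟨a₀ + 1, a₁ + 1, a₃, Cst, fun m _ K₁ => ?_⟩
  -- the constants
  obtain ⟨K, hK⟩ : ∃ K, K = K₁ + (m + 1) * (((2 * n + 1) * (2 * n + 1) + 3) +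
    (3 * (2 * n + 1) + 1) * (W₀ + 1)) := ⟨_, rfl⟩
  obtain ⟨L, hL⟩ : ∃ L, L = NN n * (JA K).card + 1 := ⟨_, rfl⟩
  have hL1 : 1 ≤ L := by rw [hL]; exact Nat.le_add_left _ _
  obtain ⟨C₁, β₂, hpar⟩ := exists_par0 (NN n) L K (q₀ + 3) (JA K).card hL1
  obtain ⟨β₁, hB1⟩ := h K L C₁ hL1
  refine ⟨K, L, max (max β₁ β₂) (max (32 * ((2 * (n + 1)) ^ n) ^ 2) ((n + 1) ^ n)), ?_, hL1, ?_⟩
  · rw [hK]; exact Nat.le_add_right _ _
  intro β hβ t P B G hG ht hPt hreach h4 hne hiso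
  have hβ1 : β₁ ≤ β := ((le_max_left _ _).trans (le_max_left _ _)).trans hβ
  have hβ2 : β₂ ≤ β := ((le_max_right _ _).trans (le_max_left _ _)).trans hβ
  have hβ3 : 32 * ((2 * (n + 1)) ^ n) ^ 2 ≤ β :=
    ((le_max_left _ _).trans (le_max_right _ _)).trans hβ
  have hβ4 : (n + 1) ^ n ≤ β := ((le_max_right _ _).trans (le_max_right _ _)).trans hβ
  obtain ⟨k, hP⟩ := hpar β hβ2
  obtain ⟨E', v, k₀, hE'E, hE, hEc, hU, hk₀, hw⟩ := exists_unif_window (Nat.le_add_left 3 q₀) hK hL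
    hP hβ3 hn hG hreach h4 hne
  have hkK : k₀ ≤ K := (Nat.le_add_right _ _).trans hk₀
  have hle1 : v (FI.L1, k₀) ≤ n := L_le FI.L1 (L1_mem_JA hkK) hE hU (fun e => cA_L1_le _ _ _ e)
  have hle2 : v (FI.L2, k₀) ≤ n := L_le FI.L2 (L2_mem_JA hkK) hE hU (fun e => cA_L2_le _ _ _ e)
  have hb1 : 1 ≤ β ^ L := Nat.le_of_lt hP.b_gt_one
  by_cases hfull : v (FI.L1, k₀) = n ∨ v (FI.L2, k₀) = n
  · left
    exact deg_of_unif hP.beta_gt_one hL1 (Nat.le_add_left _ _) (Nat.le_add_left _ _) hE'E hE hEc hU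
      hβ4 hkK hfull
  · right
    push Not at hfull
    obtain ⟨A, Wd, D, σ₁, σ₂, v₁, v₂, S₁, S₂, κ, Q, hA, hAc, hW, hD, hQ2, hQ1, hcase, hX⟩ :=
      hB1 β k hβ1 (par_mono hP (Nat.le_add_right q₀ 3)) t P B G E' v k₀ hG ht hPt hiso hE'E hE hU
        (by omega) (fun k h1 h2 => hw k h1 (by omega)) (lt_of_le_of_ne hle1 hfull.1)
        (lt_of_le_of_ne hle2 hfull.2)
    refine ⟨A, Wd, D, σ₁, σ₂, v₁, v₂, S₁, S₂, κ, Q, hA.trans hE'E, ?_, hW, ?_, hQ2, hQ1, hcase,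
      hX⟩
    · calc (Ez P B β).card ≤ β ^ L * E'.card := hEc
        _ ≤ β ^ L * ((β ^ L) ^ a₀ * A.card) := Nat.mul_le_mul_left _ hAc
        _ = (β ^ L) ^ (a₀ + 1) * A.card := by rw [pow_succ]; ring
    · exact hD.trans (Nat.pow_le_pow_right hb1 (Nat.le_succ _))

end Vale.Agent.P054.T2.H686
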