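import Vale.Agent.P054.T2.H686.Glue
import Vale.Agent.P054.T2.H84.HatWin
import Vale.Agent.P054.T2.H794.SecBDef

set_option autoImplicit false
set_option linter.all false

/-!
# P054 / T2, assembly (4): `MainAB` from `H794.SecB`
-/

namespace Vale.Agent.P054.T2.H686

open Finset MvPolynomial Module
open Vale.Agent.P054.T2.SecC
open Vale.Agent.P054.T2.H307 (van mem_van IsUnif cA JA FI isFam_F isFam_L1 isFam_L2 fib mem_fib
  fib_unit xF xL Ed ZK IsFamL gfL gfr gr exists_unif cA_le cA_mono NN pts mem_pts core)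
open Vale.Agent.P054.T2.H580 (Par)
open Vale.Agent.P054.T2.H794 (AData)


variable {n : ℕ}

theorem ABMain.mono {P : Finset (E n)} {B : E n ≃ₗᵢ[ℝ] E n} {β b a₀ a₁ a₁' a₃ Cst t Wmax Wmax' : ℕ}
    {G : ℕ → ℕ} (h : ABMain n P B β b a₀ a₁ a₃ Cst t Wmax G) (hb : 1 ≤ b) (ha : a₁ ≤ a₁')
    (hW : Wmax ≤ Wmax') : ABMain n P B β b a₀ a₁' a₃ Cst t Wmax' G := by
  obtain ⟨A, W, D, σ₁, σ₂, v₁, v₂, S₁, S₂, κ, Q, hA, hA0, hW1, hD, hrest⟩ := h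
  exact ⟨A, W, D, σ₁, σ₂, v₁, v₂, S₁, S₂, κ, Q, hA, hA0, hW1.trans hW,
    hD.trans (Nat.pow_le_pow_right hb ha), hrest⟩

/-- **top glue**: `H794.SecB n` gives `MainAB n` -/
theorem mainAB_of_secB' (hn : 1 ≤ n) (h : H794.SecB n) : MainAB n := by
  classical
  obtain ⟨C₀, q₀, h⟩ := h
  have h := h (C₀ + 1) (Nat.le_succ _) (q₀ + 3) (Nat.le_add_right _ _)
  have hC1 : 1 ≤ C₀ + 1 := Nat.le_add_left _ _
  generalize C₀ + 1 = C at h hC1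
  generalize hW₀ : H84.WG n C = W₀
  refine ⟨2, W₀ + 1, 4 * (n + 1), H819.Cx n, fun m _ K₁ => ?_⟩
  -- the constants
  obtain ⟨K, hK⟩ : ∃ K, K = K₁ + (m + 1) * (((2 * n + 1) * (2 * n + 1) + 3) +
    (3 * (2 * n + 1) + 1) * (W₀ + 1)) := ⟨_, rfl⟩
  obtain ⟨L, hL⟩ : ∃ L, L = NN n * (JA K).card + 1 := ⟨_, rfl⟩
  have hL1 : 1 ≤ L := by rw [hL]; exact Nat.le_add_left _ _
  obtain ⟨C₁, β₂, hpar⟩ := exists_par0 (NN n) L K (q₀ + 3) (JA K).card hL1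
  obtain ⟨β₁, hB1⟩ := h L K
  refine ⟨K, L, max (max β₁ β₂) (max (32 * ((2 * (n + 1)) ^ n) ^ 2) ((n + 1) ^ n)), ?_, hL1, ?_⟩
  · rw [hK]; exact Nat.le_add_right _ _
  intro β hβ t P B G hG ht hPt hreach h4 hne hiso
  have hβ1 : β₁ ≤ β := ((le_max_left _ _).trans (le_max_left _ _)).trans hβ
  have hβ2 : β₂ ≤ β := ((le_max_right _ _).trans (le_max_left _ _)).trans hβ
  have hβ3 : 32 * ((2 * (n + 1)) ^ n) ^ 2 ≤ β :=
    ((le_max_left _ _).trans (le_max_right _ _)).trans hβ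
  have hβ4 : (n + 1) ^ n ≤ β := ((le_max_right _ _).trans (le_max_right _ _)).trans hβ
  obtain ⟨k, hP⟩ := hpar β hβ2
  obtain ⟨E', v, k₀, hE'E, hE, hEc, hU, hk₀, hw⟩ := exists_unif_window (Nat.le_add_left 3 q₀) hK hL
    hP hβ3 hn hG hreach h4 hne
  have hkK : k₀ ≤ K := (Nat.le_add_right _ _).trans hk₀
  have hb1 : 1 ≤ β ^ L := Nat.le_of_lt hP.b_gt_one
  have hWK : (β ^ L) ^ k₀ ≤ (β ^ L) ^ K := Nat.pow_le_pow_right hb1 hkK
  have hk₁ : k₀ + H84.WG n C ≤ K := by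
    rw [hW₀]
    exact (Nat.add_le_add_left (Nat.le_succ _) _).trans hk₀
  have hEc2 : (Ez P B β).card ≤ (β ^ L) ^ 2 * E'.card :=
    hEc.trans (Nat.mul_le_mul_right _ (Nat.le_self_pow two_ne_zero _))
  have hn2 : (n + 1) ^ n ≤ (β ^ L) ^ (W₀ + 1) :=
    (hβ4.trans (Nat.le_self_pow (Nat.pos_iff_ne_zero.1 hL1) β)).trans
      (Nat.le_self_pow (Nat.succ_ne_zero _) _)
  rcases H84.deg_or_AData (C := C) hP hU hE hE'E hEc2
    (fun e he => ⟨Ez_ne hG hn (hE'E he), Ez_Qf (hE'E he)⟩) hk₁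
    (by rw [hW₀]; exact hw) hWK hn2 with hdeg | ⟨i₀, i₁, hA⟩
  · exact Or.inl hdeg
  · right
    have hM := hB1 β hβ1 k C₁ k₀ i₀ i₁ (H84.WG n C) E' v hA t P B G hG hPt hiso hE'E hEc
    refine hM.mono hb1 ?_ hWK
    have h1 := hA.i₀_le hC1
    have h2 := hA.i₁_le hC1
    rw [hW₀] at h2
    exact (h1.trans h2).trans (Nat.le_succ _)

end Vale.Agent.P054.T2.H686
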