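import Vale.Agent.P054.T2.H686.Par

set_option autoImplicit false
set_option linter.all false

/-!
# P054 / T2, leaf (IND): number of points of `P × P` on flats, from bounds in smaller dimension
-/

namespace Vale.Agent.P054.T2.H686

open MvPolynomial

variable {n : ℕ}

/-- every set in dimension `m` with at most `t` distances has at most `g` points -/
def BB (m t : ℕ) (g : ℝ) : Prop :=
  ∀ S : Finset (EuclideanSpace ℝ (Fin m)),
    {r : ℝ | ∃ p ∈ S, ∃ q ∈ S, p ≠ q ∧ r = dist p q}.ncard ≤ t → (S.card : ℝ) ≤ g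

theorem BB.nonneg {m t : ℕ} {g : ℝ} (h : BB m t g) : 0 ≤ g := by
  have := h ∅ (by simp)
  simpa using this

/-- points of `P` with all differences in an `m`-dimensional subspace -/
theorem card_le_of_flat {m t : ℕ} {g : ℝ} (P S : Finset (E n)) (hSP : S ⊆ P)
    (ht : (dists P).card ≤ t) (V : Submodule ℝ (E n)) (hV : Module.finrank ℝ V = m)
    (hS : ∀ x ∈ S, ∀ y ∈ S, x - y ∈ V) (hg : BB m t g) : (S.card : ℝ) ≤ g := by
  classical
  rcases S.eq_empty_or_nonempty with rfl | ⟨p₀, hp₀⟩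
  · simpa using hg.nonneg
  set b : OrthonormalBasis (Fin m) ℝ V := (stdOrthonormalBasis ℝ V).reindex (finCongr hV) with hb
  set f : E n → EuclideanSpace ℝ (Fin m) := fun p =>
    if h : p - p₀ ∈ V then b.repr ⟨p - p₀, h⟩ else 0 with hf
  have hdist : ∀ p ∈ S, ∀ q ∈ S, dist (f p) (f q) = dist p q := by
    intro p hp q hq
    simp only [hf]
    rw [dif_pos (hS p hp p₀ hp₀), dif_pos (hS q hq p₀ hp₀), LinearIsometryEquiv.dist_map]
    rw [Subtype.dist_eq, dist_sub_right]
  have hinj : Set.InjOn f (S : Set (E n)) := by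
    intro p hp q hq hpq
    have h1 := hdist p hp q hq
    rw [hpq, dist_self] at h1
    exact dist_eq_zero.mp h1.symm
  have h1 := hg (S.image f) (by
    refine le_trans ?_ ht
    rw [← Set.ncard_coe_finset]
    refine Set.ncard_le_ncard ?_ (Finset.finite_toSet _)
    rintro r ⟨p, hp, q, hq, hne, rfl⟩
    obtain ⟨p', hp', rfl⟩ := Finset.mem_image.1 hp
    obtain ⟨q', hq', rfl⟩ := Finset.mem_image.1 hq
    rw [hdist p' hp' q' hq']
    exact Finset.mem_coe.2 (dist_mem_dists (hSP hp') (hSP hq') (fun h => hne (by rw [h]))))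
  rwa [Finset.card_image_of_injOn hinj] at h1

/-- the map `(ζ, θ) ↦ x = (ζ + θ) / 2` -/
noncomputable def toX : ((Fin (n + 1) → ℝ) × (Fin (n + 1) → ℝ)) →ₗ[ℝ] E n where
  toFun w := WithLp.toLp 2 (fun i => (w.1 i + w.2 i) / 2)
  map_add' w w' := by
    ext i
    simp only [Prod.fst_add, Prod.snd_add, Pi.add_apply, PiLp.add_apply]; ring
  map_smul' c w := by
    ext i
    simp only [Prod.smul_fst, Prod.smul_snd, Pi.smul_apply, smul_eq_mul, PiLp.smul_apply,
      RingHom.id_apply]; ring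

/-- the map `(ζ, θ) ↦ B x' = (θ - ζ) / 2` -/
noncomputable def toY : ((Fin (n + 1) → ℝ) × (Fin (n + 1) → ℝ)) →ₗ[ℝ] E n where
  toFun w := WithLp.toLp 2 (fun i => (w.2 i - w.1 i) / 2)
  map_add' w w' := by
    ext i
    simp only [Prod.fst_add, Prod.snd_add, Pi.add_apply, PiLp.add_apply]; ring
  map_smul' c w := by
    ext i
    simp only [Prod.smul_fst, Prod.smul_snd, Pi.smul_apply, smul_eq_mul, PiLp.smul_apply,
      RingHom.id_apply]; ring

theorem toX_zt (B : E n ≃ₗᵢ[ℝ] E n) (s : E n × E n) : toX (zt B s) = s.1 := by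
  ext i
  simp only [toX, zt, LinearMap.coe_mk, AddHom.coe_mk]
  ring

theorem toY_zt (B : E n ≃ₗᵢ[ℝ] E n) (s : E n × E n) : toY (zt B s) = B s.2 := by
  ext i
  simp only [toY, zt, LinearMap.coe_mk, AddHom.coe_mk]
  ring

theorem Qf_eq_norm (w : (Fin (n + 1) → ℝ) × (Fin (n + 1) → ℝ)) :
    Qf w = ‖toX w‖ ^ 2 - ‖toY w‖ ^ 2 := by
  rw [EuclideanSpace.norm_sq_eq, EuclideanSpace.norm_sq_eq, ← Finset.sum_sub_distrib]
  unfold Qf
  refine Finset.sum_congr rfl fun i _ => ?_
  simp only [toX, toY, LinearMap.coe_mk, AddHom.coe_mk, Real.norm_eq_abs, sq_abs]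
  ring

theorem eq_zero_of_toX_toY {w : (Fin (n + 1) → ℝ) × (Fin (n + 1) → ℝ)} (h1 : toX w = 0)
    (h2 : toY w = 0) : w = 0 := by
  have h3 : ∀ i, (w.1 i + w.2 i) / 2 = 0 := fun i => congrArg (fun x : E n => x i) h1
  have h4 : ∀ i, (w.2 i - w.1 i) / 2 = 0 := fun i => congrArg (fun x : E n => x i) h2
  ext i
  · simp only [Prod.fst_zero, Pi.zero_apply]; linarith [h3 i, h4 i]
  · simp only [Prod.snd_zero, Pi.zero_apply]; linarith [h3 i, h4 i]

/-- on an isotropic subspace `x` is injective -/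
theorem toX_injOn_isotropic {V : Submodule ℝ ((Fin (n + 1) → ℝ) × (Fin (n + 1) → ℝ))}
    (hQ : ∀ w ∈ V, Qf w = 0) {w : (Fin (n + 1) → ℝ) × (Fin (n + 1) → ℝ)} (hw : w ∈ V)
    (h : toX w = 0) : w = 0 := by
  have h1 := hQ w hw
  rw [Qf_eq_norm, h, norm_zero] at h1
  have h2 : ‖toY w‖ = 0 := by nlinarith [norm_nonneg (toY w)]
  exact eq_zero_of_toX_toY h (norm_eq_zero.1 h2)

/-- **(IND a)** isotropic flats: `|Σ ∩ N| ≤ g_m(t)` -/
theorem card_isotropic_le {m t : ℕ} {g : ℝ} (P : Finset (E n)) (B : E n ≃ₗᵢ[ℝ] E n)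
    (ht : (dists P).card ≤ t)
    (V : Submodule ℝ ((Fin (n + 1) → ℝ) × (Fin (n + 1) → ℝ))) (hV : Module.finrank ℝ V = m)
    (hQ : ∀ w ∈ V, Qf w = 0) (S : Finset (E n × E n)) (hS : S ⊆ P ×ˢ P)
    (hSV : ∀ s ∈ S, ∀ s' ∈ S, zt B s - zt B s' ∈ V) (hg : BB m t g) : (S.card : ℝ) ≤ g := by
  classical
  have hinj : Set.InjOn Prod.fst (S : Set (E n × E n)) := by
    intro s hs s' hs' h
    have h1 := hSV s hs s' hs'
    have h2 : toX (zt B s - zt B s') = 0 := by
      rw [map_sub, toX_zt, toX_zt, h, sub_self]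
    have h3 := toX_injOn_isotropic hQ h1 h2
    exact zt_injective B (sub_eq_zero.1 h3)
  rw [← Finset.card_image_of_injOn hinj]
  have hfin : Module.finrank ℝ (V.map (toX (n := n))) = m := by
    rw [← hV]
    have hinj' : Function.Injective ((toX (n := n)).domRestrict V) := by
      rw [injective_iff_map_eq_zero]
      intro w hw
      exact Subtype.ext (toX_injOn_isotropic hQ w.2 hw)
    have h2 := LinearMap.finrank_range_of_inj hinj'
    rw [LinearMap.range_domRestrict] at h2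
    exact h2
  refine card_le_of_flat P (S.image Prod.fst) ?_ ht (V.map (toX (n := n))) hfin ?_ hg
  · intro x hx
    obtain ⟨s, hs, rfl⟩ := Finset.mem_image.1 hx
    exact (Finset.mem_product.1 (hS hs)).1
  · intro x hx y hy
    obtain ⟨s, hs, rfl⟩ := Finset.mem_image.1 hx
    obtain ⟨s', hs', rfl⟩ := Finset.mem_image.1 hy
    refine ⟨zt B s - zt B s', hSV s hs s' hs', ?_⟩
    rw [map_sub, toX_zt, toX_zt]

/-- **(IND b)** general flats: `a` = dimension of the `x`-projection, `b` = dimension of the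
kernel -/
theorem card_flat_le {a b t : ℕ} {g g' : ℝ} (P : Finset (E n)) (B : E n ≃ₗᵢ[ℝ] E n)
    (ht : (dists P).card ≤ t)
    (V : Submodule ℝ ((Fin (n + 1) → ℝ) × (Fin (n + 1) → ℝ)))
    (ha : Module.finrank ℝ (V.map (toX (n := n))) = a)
    (hb : Module.finrank ℝ (V ⊓ LinearMap.ker (toX (n := n)) : Submodule ℝ _) = b)
    (S : Finset (E n × E n)) (hS : S ⊆ P ×ˢ P)
    (hSV : ∀ s ∈ S, ∀ s' ∈ S, zt B s - zt B s' ∈ V) (hg : BB a t g) (hg' : BB b t g') :
    (S.card : ℝ) ≤ g * g' := by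
  classical
  have h1 : ((S.image Prod.fst).card : ℝ) ≤ g := by
    refine card_le_of_flat P (S.image Prod.fst) ?_ ht (V.map (toX (n := n))) ha ?_ hg
    · intro x hx
      obtain ⟨s, hs, rfl⟩ := Finset.mem_image.1 hx
      exact (Finset.mem_product.1 (hS hs)).1
    · intro x hx y hy
      obtain ⟨s, hs, rfl⟩ := Finset.mem_image.1 hx
      obtain ⟨s', hs', rfl⟩ := Finset.mem_image.1 hy
      refine ⟨zt B s - zt B s', hSV s hs s' hs', ?_⟩
      rw [map_sub, toX_zt, toX_zt]
  set W : Submodule ℝ (E n) := ((V ⊓ LinearMap.ker (toX (n := n))).map (toY (n := n))).map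
    (B.symm.toLinearEquiv : E n →ₗ[ℝ] E n) with hW
  have hWb : Module.finrank ℝ W = b := by
    rw [hW, LinearEquiv.finrank_map_eq]
    rw [← hb]
    have hinj' : Function.Injective ((toY (n := n)).domRestrict
        (V ⊓ LinearMap.ker (toX (n := n)))) := by
      rw [injective_iff_map_eq_zero]
      intro w hw
      exact Subtype.ext (eq_zero_of_toX_toY (LinearMap.mem_ker.1 w.2.2) hw)
    have h2 := LinearMap.finrank_range_of_inj hinj'
    rw [LinearMap.range_domRestrict] at h2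
    exact h2
  have h2 : ∀ x ∈ S.image Prod.fst, ((S.filter fun s => s.1 = x).card : ℝ) ≤ g' := by
    intro x _
    have hinj : Set.InjOn Prod.snd ((S.filter fun s => s.1 = x : Finset (E n × E n)) :
        Set (E n × E n)) := by
      intro s hs s' hs' h
      have h3 := (Finset.mem_filter.1 (Finset.mem_coe.1 hs)).2
      have h4 := (Finset.mem_filter.1 (Finset.mem_coe.1 hs')).2
      exact Prod.ext (h3.trans h4.symm) h
    rw [← Finset.card_image_of_injOn hinj]
    refine card_le_of_flat P _ ?_ ht W hWb ?_ hg'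
    · intro y hy
      obtain ⟨s, hs, rfl⟩ := Finset.mem_image.1 hy
      exact (Finset.mem_product.1 (hS (Finset.mem_filter.1 hs).1)).2
    · intro y hy z hz
      obtain ⟨s, hs, rfl⟩ := Finset.mem_image.1 hy
      obtain ⟨s', hs', rfl⟩ := Finset.mem_image.1 hz
      rw [Finset.mem_filter] at hs hs'
      refine ⟨B s.2 - B s'.2, ⟨zt B s - zt B s', ⟨hSV s hs.1 s' hs'.1, ?_⟩, ?_⟩, ?_⟩
      · rw [SetLike.mem_coe, LinearMap.mem_ker, map_sub, toX_zt, toX_zt, hs.2, hs'.2, sub_self]
      · rw [map_sub, toY_zt, toY_zt]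
      · rw [← map_sub]
        exact B.symm_apply_apply _
  have h3 : (S.card : ℝ) = ∑ x ∈ S.image Prod.fst, ((S.filter fun s => s.1 = x).card : ℝ) := by
    exact_mod_cast Finset.card_eq_sum_card_image Prod.fst S
  rw [h3]
  refine (Finset.sum_le_sum h2).trans ?_
  rw [Finset.sum_const, nsmul_eq_mul]
  exact mul_le_mul_of_nonneg_right h1 hg'.nonneg

/-- a set on a line with `t` distances has at most `t + 1` points -/
theorem BB_one (t : ℕ) : BB 1 t (t + 1) := by
  classical
  intro S hS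
  rcases S.eq_empty_or_nonempty with rfl | hne
  · simp; positivity
  -- the smallest point
  obtain ⟨p, hp, hmin⟩ := S.exists_min_image (fun x => x 0) hne
  have h1 : (S.erase p).card ≤ t := by
    refine le_trans ?_ hS
    have hfin : {r : ℝ | ∃ p ∈ S, ∃ q ∈ S, p ≠ q ∧ r = dist p q}.Finite := by
      have : {r : ℝ | ∃ p ∈ S, ∃ q ∈ S, p ≠ q ∧ r = dist p q} ⊆
          ((S ×ˢ S).image fun q => dist q.1 q.2 : Finset ℝ) := by
        rintro r ⟨p, hp, q, hq, -, rfl⟩
        exact Finset.mem_coe.2 (Finset.mem_image.2 ⟨(p, q), Finset.mem_product.2 ⟨hp, hq⟩, rfl⟩)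
      exact (Finset.finite_toSet _).subset this
    have hd : ∀ x y : EuclideanSpace ℝ (Fin 1), dist x y = |x 0 - y 0| := by
      intro x y
      rw [EuclideanSpace.dist_eq]
      simp [Real.dist_eq, Real.sqrt_sq_eq_abs]
    have hinj : Set.InjOn (fun x => dist p x) ((S.erase p : Finset _) : Set
        (EuclideanSpace ℝ (Fin 1))) := by
      intro x hx y hy hxy
      have hx' := (Finset.mem_erase.1 (Finset.mem_coe.1 hx)).2
      have hy' := (Finset.mem_erase.1 (Finset.mem_coe.1 hy)).2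
      simp only [hd] at hxy
      have h3 := hmin x hx'
      have h4 := hmin y hy'
      rw [abs_of_nonpos (by linarith), abs_of_nonpos (by linarith)] at hxy
      ext i
      have : i = 0 := Subsingleton.elim _ _
      subst this
      linarith
    rw [← Finset.card_image_of_injOn hinj, ← Set.ncard_coe_finset]
    refine Set.ncard_le_ncard ?_ hfin
    intro r hr
    obtain ⟨x, hx, rfl⟩ := Finset.mem_image.1 (Finset.mem_coe.1 hr)
    obtain ⟨hxp, hxS⟩ := Finset.mem_erase.1 hx
    exact ⟨p, hp, x, hxS, hxp.symm, rfl⟩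
  have h2 := Finset.card_erase_add_one hp
  have : S.card ≤ t + 1 := by omega
  exact_mod_cast this

theorem BB_zero (t : ℕ) : BB 0 t 1 := by
  intro S _
  have : S.card ≤ 1 := Finset.card_le_one.2 fun x _ y _ => Subsingleton.elim _ _
  exact_mod_cast this

end Vale.Agent.P054.T2.H686
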