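import Vale.Agent.P054.T2.H686.Ind
import Vale.Agent.P054.H239.HRec

set_option autoImplicit false
set_option linter.all false

/-!
# P054 / T2, top: bridge to the landed frame `Sex d (DC d) α`
-/

namespace Vale.Agent.P054.T2.H686

open Vale.Agent.P054I Vale.Agent.P054K

theorem DC_iff {m t : ℕ} (S : Finset (EuclideanSpace ℝ (Fin m))) :
    DC m t S ↔ {r : ℝ | ∃ p ∈ S, ∃ q ∈ S, p ≠ q ∧ r = dist p q}.ncard ≤ t := by
  classical
  have h : {r : ℝ | ∃ p ∈ S, ∃ q ∈ S, p ≠ q ∧ r = dist p q} =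
      ((S.offDiag.image (fun q => dist q.1 q.2) : Finset ℝ) : Set ℝ) := by
    ext r
    simp only [Finset.coe_image, Set.mem_image, Finset.mem_coe, Finset.mem_offDiag,
      Prod.exists, Set.mem_setOf_eq]
    constructor
    · rintro ⟨p, hp, q, hq, hne, rfl⟩
      exact ⟨p, q, ⟨hp, hq, hne⟩, rfl⟩
    · rintro ⟨p, q, ⟨hp, hq, hne⟩, rfl⟩
      exact ⟨p, hp, q, hq, hne, rfl⟩
  rw [h, Set.ncard_coe_finset]
  unfold DC
  convert Iff.rfl

/-- bounds in smaller dimension -/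
theorem BB_of_sex {m : ℕ} {α : ℝ} (h : Sex m (DC m) α) (ε : ℝ) (hε : 0 < ε) :
    ∃ C : ℝ, 0 < C ∧ ∀ t : ℕ, 1 ≤ t → BB m t (C * (t : ℝ) ^ (α + ε)) := by
  obtain ⟨C, hC, h1⟩ := h ε hε
  refine ⟨C, hC, fun t ht S hS => ?_⟩
  exact h1 t ht S ((DC_iff S).2 hS)

/-- `g d n`: the least number of distinct distances determined by `n` points of `ℝ^d` -/
noncomputable def g (d n : ℕ) : ℕ :=
  sInf {k : ℕ | ∃ P : Finset (EuclideanSpace ℝ (Fin d)), P.card = n ∧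
    {r : ℝ | ∃ p ∈ P, ∃ q ∈ P, p ≠ q ∧ r = dist p q}.ncard = k}

theorem lower_of_sex {d : ℕ} (hd : 1 ≤ d) (h : Sex d (DC d) ((d : ℝ) / 2)) (ε : ℝ)
    (hε : 0 < ε) : ∃ c : ℝ, 0 < c ∧ ∀ n : ℕ, 2 ≤ n →
      c * (n : ℝ) ^ (2 / (d : ℝ) - ε) ≤ ((g d n : ℕ) : ℝ) := by
  have hD : (1 : ℝ) ≤ d := by exact_mod_cast hd
  obtain ⟨c, hc, h4⟩ := lower_DC (by positivity) h ε hε
  refine ⟨c, hc, fun n hn => ?_⟩
  have hne : {k : ℕ | ∃ P : Finset (EuclideanSpace ℝ (Fin d)), P.card = n ∧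
      {r : ℝ | ∃ p ∈ P, ∃ q ∈ P, p ≠ q ∧ r = dist p q}.ncard = k}.Nonempty := by
    have : Infinite (EuclideanSpace ℝ (Fin d)) := by
      have : Nonempty (Fin d) := ⟨⟨0, by omega⟩⟩
      exact inferInstance
    obtain ⟨P, hP⟩ := Infinite.exists_subset_card_eq (EuclideanSpace ℝ (Fin d)) n
    exact ⟨_, P, hP, rfl⟩
  obtain ⟨P, hPn, hPk⟩ := Nat.sInf_mem hne
  have hgk : g d n = {r : ℝ | ∃ p ∈ P, ∃ q ∈ P, p ≠ q ∧ r = dist p q}.ncard := by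
    unfold g
    rw [hPk]
  rw [hgk, ← hPn]
  have h5 := h4 P (by omega)
  rwa [show (1 : ℝ) / ((d : ℝ) / 2) - ε = 2 / (d : ℝ) - ε by rw [one_div_div]] at h5

/-- **top**: from the induction step in every dimension `d ≥ 4` -/
theorem top (h2 : Sex 2 (DC 2) 1) (h3 : Sex 3 (DC 3) (3 / 2))
    (step : ∀ d : ℕ, 4 ≤ d → (∀ m : ℕ, 2 ≤ m → m < d → Sex m (DC m) ((m : ℝ) / 2)) →
      Sex d (DC d) ((d : ℝ) / 2)) :
    ∀ d : ℕ, 2 ≤ d → Sex d (DC d) ((d : ℝ) / 2) := by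
  intro d
  induction d using Nat.strong_induction_on with
  | _ d ih =>
    intro hd
    rcases Nat.lt_or_ge d 4 with h | h
    · interval_cases d
      · simpa using h2
      · simpa using h3
    · exact step d h fun m hm hmd => ih m hmd hm

theorem top_lower (h2 : Sex 2 (DC 2) 1) (h3 : Sex 3 (DC 3) (3 / 2))
    (step : ∀ d : ℕ, 4 ≤ d → (∀ m : ℕ, 2 ≤ m → m < d → Sex m (DC m) ((m : ℝ) / 2)) →
      Sex d (DC d) ((d : ℝ) / 2)) (d : ℕ) (hd : 2 ≤ d) (ε : ℝ) (hε : 0 < ε) :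
    ∃ c : ℝ, 0 < c ∧ ∀ n : ℕ, 2 ≤ n →
      c * (n : ℝ) ^ (2 / (d : ℝ) - ε) ≤ ((g d n : ℕ) : ℝ) :=
  lower_of_sex (by omega) (top h2 h3 step d hd) ε hε

/-- contradiction form of the induction step, `d = n + 1` -/
theorem sex_of_contra {n : ℕ} (h : ∀ η : ℝ, 0 < η → η ≤ 1 → ∃ T0 : ℝ, ∀ t : ℕ, T0 ≤ t → 1 ≤ t →
      ∀ P : Finset (E n), (dists P).card ≤ t →
        (t : ℝ) ^ (((n + 1 : ℕ) : ℝ) / 2 + η) < P.card → False) :
    Sex (n + 1) (DC (n + 1)) (((n + 1 : ℕ) : ℝ) / 2) := by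
  apply sex_of_large (by positivity)
  · intro t t' htt' P hP
    exact le_trans hP htt'
  · intro ε hε hε1
    obtain ⟨T0, hT0⟩ := h ε hε hε1
    refine ⟨max T0 1, fun t ht P hP => ?_⟩
    have ht0 : T0 ≤ t := (le_max_left _ _).trans ht
    have ht1 : (1 : ℝ) ≤ t := (le_max_right _ _).trans ht
    have ht1' : 1 ≤ t := by exact_mod_cast ht1
    by_contra hcon
    push Not at hcon
    refine hT0 t ht0 ht1' P ?_ ?_
    · have h1 := (DC_iff P).1 hP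
      rwa [← coe_dists, Set.ncard_coe_finset] at h1
    · refine lt_of_le_of_lt ?_ hcon
      have : (0 : ℝ) ≤ (t : ℝ) ^ (((n + 1 : ℕ) : ℝ) / 2 + ε) := by positivity
      linarith

theorem dists_mono {n : ℕ} {P P' : Finset (E n)} (h : P' ⊆ P) : dists P' ⊆ dists P := by
  classical
  unfold dists
  exact Finset.image_subset_image (Finset.offDiag_mono h)

/-- contradiction form with the number of points pinned down up to a factor `2` -/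
theorem sex_of_contra' {n : ℕ} (h : ∀ η : ℝ, 0 < η → η ≤ 1 → ∃ T0 : ℕ, ∀ t : ℕ, T0 ≤ t → 1 ≤ t →
      ∀ P : Finset (E n), (dists P).card ≤ t →
        (t : ℝ) ^ (((n + 1 : ℕ) : ℝ) / 2 + η) ≤ P.card →
        (P.card : ℝ) ≤ 2 * (t : ℝ) ^ (((n + 1 : ℕ) : ℝ) / 2 + η) → False) :
    Sex (n + 1) (DC (n + 1)) (((n + 1 : ℕ) : ℝ) / 2) := by
  apply sex_of_contra
  intro η hη hη1
  obtain ⟨T0, hT0⟩ := h η hη hη1
  refine ⟨T0, fun t ht ht1 P hP hcard => ?_⟩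
  have ht1' : (1 : ℝ) ≤ t := by exact_mod_cast ht1
  set x : ℝ := (t : ℝ) ^ (((n + 1 : ℕ) : ℝ) / 2 + η) with hx
  have hx1 : 1 ≤ x := Real.one_le_rpow ht1' (by positivity)
  have h1 : ⌈x⌉₊ ≤ P.card := Nat.ceil_le.2 hcard.le
  obtain ⟨P', hP', hP'c⟩ := Finset.exists_subset_card_eq h1
  refine hT0 t (by exact_mod_cast ht) ht1 P' ?_ ?_ ?_
  · exact (Finset.card_le_card (dists_mono hP')).trans hP
  · rw [hP'c]; exact Nat.le_ceil _
  · rw [hP'c]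
    have := Nat.ceil_lt_add_one (show 0 ≤ x by linarith)
    linarith

end Vale.Agent.P054.T2.H686
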